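import Mathlib

/-!
Laurent polynomial rings in arbitrarily many variables: unique factorisation, and the fact that
factors of homogeneous elements are homogeneous.
-/

namespace Vale.Agent.P201

open AddMonoidAlgebra

/-- Laurent polynomials over `K` in the variables `σ`. -/
abbrev Lau (K σ : Type*) [Field K] := AddMonoidAlgebra K (σ →₀ ℤ)

section Homogeneous

variable {R D : Type*} [CommRing R] [NoZeroDivisors R] [AddCommGroup D] [TwoUniqueSums D]

theorem exists_eq_single_of_mul {f g : AddMonoidAlgebra R D} {d : D} {r : R} (hr : r ≠ 0)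
    (h : f * g = single d r) : ∃ d₁ a, f = single d₁ a := by
  classical
  have hf : f ≠ 0 := by rintro rfl; simp [hr, eq_comm] at h
  have hg : g ≠ 0 := by rintro rfl; simp [hr, eq_comm] at h
  have hfc : f.coeff.support.Nonempty := by
    rw [Finsupp.support_nonempty_iff]; simpa using hf
  have hgc : g.coeff.support.Nonempty := by
    rw [Finsupp.support_nonempty_iff]; simpa using hg
  by_cases h1 : f.coeff.support.card = 1
  · obtain ⟨d₁, hd₁⟩ := Finset.card_eq_one.1 h1
    refine ⟨d₁, f.coeff d₁, ?_⟩
    ext q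
    by_cases hq : q = d₁
    · subst hq; simp
    · have : f.coeff q = 0 := by
        rw [← Finsupp.notMem_support_iff, hd₁]; simpa using hq
      simp [this, Ne.symm hq]
  · exfalso
    have hlt : 1 < f.coeff.support.card * g.coeff.support.card := by
      have := hfc.card_pos
      have := hgc.card_pos
      calc 1 < f.coeff.support.card := by omega
        _ ≤ f.coeff.support.card * g.coeff.support.card := Nat.le_mul_of_pos_right _ (by omega)
    obtain ⟨p₁, hp₁, p₂, hp₂, hne, hu₁, hu₂⟩ := TwoUniqueSums.uniqueAdd_of_one_lt_card hlt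
    rw [Finset.mem_product] at hp₁ hp₂
    have key : ∀ p : D × D, p.1 ∈ f.coeff.support → p.2 ∈ g.coeff.support →
        UniqueAdd f.coeff.support g.coeff.support p.1 p.2 → p.1 + p.2 = d := by
      intro p hpf hpg hu
      have h0 : (f * g).coeff (p.1 + p.2) ≠ 0 := by
        rw [coeff_mul_add_of_uniqueAdd hu]
        exact mul_ne_zero (Finsupp.mem_support_iff.1 hpf) (Finsupp.mem_support_iff.1 hpg)
      by_contra hd
      exact h0 (by simp [h, Ne.symm hd])
    have he := (key p₂ hp₂.1 hp₂.2 hu₂).trans (key p₁ hp₁.1 hp₁.2 hu₁).symm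
    obtain ⟨e₁, e₂⟩ := hu₁ hp₂.1 hp₂.2 he
    exact hne (Prod.ext e₁.symm e₂.symm)

end Homogeneous

section Laurent

variable {K σ : Type*} [Field K]

theorem Lau.isUnit_single {c : σ →₀ ℤ} {a : K} (ha : a ≠ 0) :
    IsUnit (single c a : Lau K σ) :=
  IsUnit.of_mul_eq_one (single (-c) a⁻¹)
    (by simp [single_mul_single, ha, AddMonoidAlgebra.one_def])

theorem Lau.eq_single_of_isUnit {f : Lau K σ} (h : IsUnit f) :
    ∃ c a, f = single c a ∧ a ≠ 0 := by
  obtain ⟨g, hg⟩ := h.exists_right_inv
  obtain ⟨c, a, rfl⟩ := exists_eq_single_of_mul (d := (0 : σ →₀ ℤ)) (one_ne_zero (α := K))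
    (by rw [hg, AddMonoidAlgebra.one_def])
  refine ⟨c, a, rfl, ?_⟩
  rintro rfl
  simp at hg

/-- The inclusion of the polynomial ring in the Laurent polynomial ring. -/
noncomputable def polyIncl (K σ : Type*) [Field K] : MvPolynomial σ K →+* Lau K σ :=
  AddMonoidAlgebra.mapDomainRingHom K (Finsupp.mapRange.addMonoidHom (Nat.castAddMonoidHom ℤ))

theorem polyIncl_injective : Function.Injective (polyIncl K σ) :=
  AddMonoidAlgebra.mapDomain_injective
    (Finsupp.mapRange_injective _ Nat.cast_zero Nat.cast_injective)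

theorem exists_poly (f : Lau K σ) :
    ∃ (s : σ →₀ ℕ) (p : MvPolynomial σ K),
      f * polyIncl K σ (MvPolynomial.monomial s 1) = polyIncl K σ p := by
  classical
  induction f using AddMonoidAlgebra.induction_linear with
  | zero => exact ⟨0, 0, by simp⟩
  | add x y hx hy =>
    obtain ⟨s, p, hp⟩ := hx
    obtain ⟨t, q, hq⟩ := hy
    refine ⟨s + t, p * MvPolynomial.monomial t 1 + q * MvPolynomial.monomial s 1, ?_⟩
    have hst : MvPolynomial.monomial (s + t) (1 : K)
        = MvPolynomial.monomial s 1 * MvPolynomial.monomial t 1 := by simp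
    rw [hst, map_mul, map_add, map_mul, map_mul, add_mul, ← hp, ← hq]
    ring
  | single c a =>
    refine ⟨(-c).mapRange Int.toNat Int.toNat_zero, MvPolynomial.monomial
      (c.mapRange Int.toNat Int.toNat_zero) a, ?_⟩
    simp only [polyIncl, MvPolynomial.monomial, AddMonoidAlgebra.lsingle_apply,
      AddMonoidAlgebra.mapDomainRingHom_apply, AddMonoidAlgebra.mapDomain_single,
      single_mul_single, mul_one]
    congr 1
    ext i
    simp
    omega

theorem isUnit_polyIncl_monomial (s : σ →₀ ℕ) :
    IsUnit (polyIncl K σ (MvPolynomial.monomial s 1)) := by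
  simp only [polyIncl, MvPolynomial.monomial, AddMonoidAlgebra.lsingle_apply,
    AddMonoidAlgebra.mapDomainRingHom_apply, AddMonoidAlgebra.mapDomain_single]
  exact Lau.isUnit_single one_ne_zero

theorem Lau.uniqueFactorizationMonoid : UniqueFactorizationMonoid (Lau K σ) := by
  classical
  refine UniqueFactorizationMonoid.iff_exists_prime_mem_of_isPrime.2 fun P hP hPp => ?_
  let j := polyIncl K σ
  have hQ : P.comap j ≠ ⊥ := by
    obtain ⟨y, hy, hy0⟩ := Submodule.exists_mem_ne_zero_of_ne_bot hP
    obtain ⟨s, p, hp⟩ := exists_poly y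
    intro hb
    have hpm : p ∈ P.comap j := by
      show j p ∈ P
      rw [← hp]
      exact P.mul_mem_right _ hy
    rw [hb, Submodule.mem_bot] at hpm
    rw [hpm, map_zero] at hp
    exact hy0 ((isUnit_polyIncl_monomial s).mul_left_eq_zero.1 hp)
  obtain ⟨q, hqP, hq⟩ := (Ideal.comap_isPrime j P).exists_mem_prime_of_ne_bot hQ
  have hjq : ¬ IsUnit (j q) := fun hu => hPp.ne_top (Ideal.eq_top_of_isUnit_mem P hqP hu)
  have hnd : ∀ s : σ →₀ ℕ, ¬ q ∣ MvPolynomial.monomial s 1 := by
    intro s hs
    exact hjq (isUnit_of_dvd_unit (map_dvd j hs) (isUnit_polyIncl_monomial s))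
  refine ⟨j q, hqP, ?_, hjq, ?_⟩
  · intro h0
    exact hq.ne_zero (polyIncl_injective (by rw [map_zero]; exact h0))
  · intro y z hyz
    obtain ⟨w, hw⟩ := hyz
    obtain ⟨s, p, hp⟩ := exists_poly y
    obtain ⟨t, r, hr⟩ := exists_poly z
    obtain ⟨u, w', hw'⟩ := exists_poly w
    have heq : p * r * MvPolynomial.monomial u 1
        = q * (w' * (MvPolynomial.monomial s 1 * MvPolynomial.monomial t 1)) := by
      apply polyIncl_injective
      simp only [map_mul]
      rw [← hp, ← hr, ← hw']
      calc y * j (MvPolynomial.monomial s 1) * (z * j (MvPolynomial.monomial t 1))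
            * j (MvPolynomial.monomial u 1)
          = (y * z) * (j (MvPolynomial.monomial s 1) * j (MvPolynomial.monomial t 1)
            * j (MvPolynomial.monomial u 1)) := by ring
        _ = _ := by rw [hw]; ring
    rcases hq.dvd_or_dvd ⟨_, heq⟩ with h | h
    · rcases hq.dvd_or_dvd h with h | h
      · left
        exact (isUnit_polyIncl_monomial s).dvd_mul_right.1 (hp ▸ map_dvd j h)
      · right
        exact (isUnit_polyIncl_monomial t).dvd_mul_right.1 (hr ▸ map_dvd j h)
    · exact absurd h (hnd u)

end Laurent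

section Degree

variable {K C D : Type*} [Field K] [AddCommGroup C] [AddCommGroup D]

/-- All exponents of `f` have degree `δ`. -/
def HomDeg (dd : C →+ D) (δ : D) (f : AddMonoidAlgebra K C) : Prop :=
  ∀ c ∈ f.coeff.support, dd c = δ

/-- The degree decomposition, as a ring homomorphism. -/
noncomputable def gradeHom (dd : C →+ D) :
    AddMonoidAlgebra K C →ₐ[K] AddMonoidAlgebra (AddMonoidAlgebra K C) D :=
  AddMonoidAlgebra.lift K (AddMonoidAlgebra (AddMonoidAlgebra K C) D) C
    { toFun := fun c => single (dd c.toAdd) (single c.toAdd 1)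
      map_one' := by simp [AddMonoidAlgebra.one_def]
      map_mul' := fun a b => by simp [single_mul_single] }

theorem gradeHom_single (dd : C →+ D) (c : C) (a : K) :
    gradeHom dd (single c a) = single (dd c) (single c a) := by
  simp [gradeHom, AddMonoidAlgebra.lift_single]

theorem gradeHom_coeff [DecidableEq D] (dd : C →+ D) (f : AddMonoidAlgebra K C) (δ : D) (c : C) :
    ((gradeHom dd f).coeff δ).coeff c = if dd c = δ then f.coeff c else 0 := by
  classical
  induction f using AddMonoidAlgebra.induction_linear with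
  | zero => simp
  | add x y hx hy => rw [map_add]; simp only [coeff_add, Finsupp.add_apply, hx, hy]; split_ifs <;> simp
  | single c' a =>
    rw [gradeHom_single]
    by_cases hc : c' = c
    · subst hc
      by_cases hd : dd c' = δ
      · subst hd; simp
      · simp [hd]
    · by_cases hd : dd c' = δ
      · subst hd; simp [hc]
      · simp [hd, hc]

theorem homDeg_iff_gradeHom {dd : C →+ D} {δ : D} {f : AddMonoidAlgebra K C} :
    HomDeg dd δ f ↔ gradeHom dd f = single δ f := by
  classical
  constructor
  · intro h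
    ext d c
    rw [gradeHom_coeff]
    by_cases hd : δ = d
    · subst hd
      split_ifs with hc
      · simp
      · simp only [coeff_single, Finsupp.single_eq_same]
        symm
        rw [← Finsupp.notMem_support_iff]
        exact fun hm => hc (h c hm)
    · simp only [coeff_single, ne_eq, Ne.symm hd, not_false_eq_true, Finsupp.single_eq_of_ne,
        coeff_zero, Finsupp.coe_zero, Pi.zero_apply, ite_eq_right_iff]
      intro hc
      rw [← Finsupp.notMem_support_iff]
      exact fun hm => hd ((h c hm).symm.trans hc)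
  · intro h c hc
    by_contra hne
    have := gradeHom_coeff dd f (dd c) c
    rw [h] at this
    simp [hne] at this
    exact Finsupp.mem_support_iff.1 hc this.symm

theorem HomDeg.mul {dd : C →+ D} {δ ε : D} {f g : AddMonoidAlgebra K C} (hf : HomDeg dd δ f)
    (hg : HomDeg dd ε g) : HomDeg dd (δ + ε) (f * g) := by
  rw [homDeg_iff_gradeHom] at *
  rw [map_mul, hf, hg, single_mul_single]

theorem HomDeg.add {dd : C →+ D} {δ : D} {f g : AddMonoidAlgebra K C} (hf : HomDeg dd δ f)
    (hg : HomDeg dd δ g) : HomDeg dd δ (f + g) := by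
  rw [homDeg_iff_gradeHom] at *
  rw [map_add, hf, hg, AddMonoidAlgebra.single_add]

theorem HomDeg.neg {dd : C →+ D} {δ : D} {f : AddMonoidAlgebra K C} (hf : HomDeg dd δ f) :
    HomDeg dd δ (-f) := by
  rw [homDeg_iff_gradeHom] at *
  rw [map_neg, hf, AddMonoidAlgebra.single_neg]

theorem homDeg_single (dd : C →+ D) (c : C) (a : K) : HomDeg dd (dd c) (single c a) := by
  rw [homDeg_iff_gradeHom, gradeHom_single]

theorem homDeg_zero (dd : C →+ D) (δ : D) : HomDeg dd δ (0 : AddMonoidAlgebra K C) := by
  simp [HomDeg]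

theorem HomDeg.unique {dd : C →+ D} {δ ε : D} {f : AddMonoidAlgebra K C} (h0 : f ≠ 0)
    (hf : HomDeg dd δ f) (hg : HomDeg dd ε f) : δ = ε := by
  obtain ⟨c, hc⟩ : f.coeff.support.Nonempty := by
    rw [Finsupp.support_nonempty_iff]; simpa using h0
  exact (hf c hc).symm.trans (hg c hc)

theorem exists_homDeg_of_dvd [NoZeroDivisors (AddMonoidAlgebra K C)] [TwoUniqueSums D]
    {dd : C →+ D} {δ : D} {f g : AddMonoidAlgebra K C} (h0 : f ≠ 0) (hf : HomDeg dd δ f)
    (hgf : g ∣ f) : ∃ c, HomDeg dd (dd c) g := by
  classical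
  obtain ⟨w, rfl⟩ := hgf
  rw [homDeg_iff_gradeHom, map_mul] at hf
  obtain ⟨d₁, a, hd⟩ := exists_eq_single_of_mul h0 hf
  obtain ⟨c, hc⟩ : g.coeff.support.Nonempty := by
    rw [Finsupp.support_nonempty_iff]
    intro hg0
    exact h0 (by simp [show g = 0 by simpa using hg0])
  have key : ∀ c' ∈ g.coeff.support, dd c' = d₁ := by
    intro c' hc'
    by_contra hne
    have := gradeHom_coeff dd g (dd c') c'
    rw [hd] at this
    simp [hne] at this
    exact Finsupp.mem_support_iff.1 hc' this.symm
  exact ⟨c, fun c' hc' => (key c' hc').trans (key c hc).symm⟩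

end Degree

end Vale.Agent.P201
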