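import Mathlib
import Vale.Agent.P201.Laurent

/-!
The generic crossed product of a finite group is a domain: if a group `G` maps onto a finite
group `H` and carries an `H`-twisted cocycle `d` into edge chains of a Cayley graph with boundary
`∂ (d g) = g - 1`, injective on the kernel, then `K[G]` has no zero divisors.
-/

namespace Vale.Agent.P201

open AddMonoidAlgebra

variable {H : Type*} [Group H] {X : Type*}

/-- Translation of a finitely supported function on `H × X` (edge chains) by an element of `H`. -/
noncomputable def tau (h : H) : (H × X →₀ ℤ) ≃+ (H × X →₀ ℤ) :=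
  Finsupp.domCongr (Equiv.prodCongr (Equiv.mulLeft h) (Equiv.refl X))

/-- Translation of vertex chains. -/
noncomputable def tauV (h : H) : (H →₀ ℤ) ≃+ (H →₀ ℤ) :=
  Finsupp.domCongr (Equiv.mulLeft h)

theorem tau_apply (h : H) (c : H × X →₀ ℤ) (u : H × X) :
    tau h c u = c (h⁻¹ * u.1, u.2) := by
  simp [tau, Finsupp.equivMapDomain_apply, Prod.map]

theorem tauV_apply (h : H) (c : H →₀ ℤ) (u : H) : tauV h c u = c (h⁻¹ * u) := by
  simp [tauV, Finsupp.equivMapDomain_apply]

theorem tau_mul (h h' : H) (c : H × X →₀ ℤ) : tau (h * h') c = tau h (tau h' c) := by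
  ext u; simp [tau_apply, mul_assoc]

theorem tau_one (c : H × X →₀ ℤ) : tau 1 c = c := by ext u; simp [tau_apply]

theorem tauV_mul (h h' : H) (c : H →₀ ℤ) : tauV (h * h') c = tauV h (tauV h' c) := by
  ext u; simp [tauV_apply, mul_assoc]

theorem tauV_one (c : H →₀ ℤ) : tauV 1 c = c := by ext u; simp [tauV_apply]

theorem tauV_single (h h' : H) (n : ℤ) :
    tauV h (Finsupp.single h' n) = Finsupp.single (h * h') n := by
  simp [tauV, Finsupp.equivMapDomain_single]

theorem tau_single (h h' : H) (x : X) (n : ℤ) :
    tau h (Finsupp.single (h', x) n) = Finsupp.single (h * h', x) n := by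
  simp [tau, Finsupp.equivMapDomain_single]

variable (f : X → H)

/-- The boundary map of the Cayley graph of `H` with respect to `f`. -/
noncomputable def bdry : (H × X →₀ ℤ) →+ (H →₀ ℤ) :=
  Finsupp.liftAddHom fun u =>
    (Finsupp.singleAddHom (u.1 * f u.2) - Finsupp.singleAddHom u.1 : ℤ →+ (H →₀ ℤ))

theorem bdry_single (h : H) (x : X) (n : ℤ) :
    bdry f (Finsupp.single (h, x) n) = Finsupp.single (h * f x) n - Finsupp.single h n := by
  simp [bdry]

theorem bdry_tau (h : H) (c : H × X →₀ ℤ) : bdry f (tau h c) = tauV h (bdry f c) := by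
  induction c using Finsupp.induction_linear with
  | zero => simp
  | add a b ha hb => simp [ha, hb]
  | single u n =>
    obtain ⟨u, x⟩ := u
    rw [tau_single, bdry_single, bdry_single, map_sub, tauV_single, tauV_single, mul_assoc]

/-- Sum of the coefficients of a vertex chain. -/
noncomputable def augV : (H →₀ ℤ) →+ ℤ := Finsupp.liftAddHom fun _ => AddMonoidHom.id ℤ

theorem augV_bdry (c : H × X →₀ ℤ) : augV (bdry f c) = 0 := by
  induction c using Finsupp.induction_linear with
  | zero => simp
  | add a b ha hb => simp [ha, hb]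
  | single u n =>
    obtain ⟨u, x⟩ := u
    rw [bdry_single, map_sub]
    simp [augV]

/-- The data of a flow extension of the finite group `H`. -/
structure FlowData (G : Type*) [Group G] where
  pr : G →* H
  d : G → (H × X →₀ ℤ)
  pr_surj : Function.Surjective pr
  d_mul : ∀ a b, d (a * b) = d a + tau (pr a) (d b)
  bdry_d : ∀ a, bdry f (d a) = Finsupp.single (pr a) 1 - Finsupp.single 1 1
  d_inj : ∀ a, pr a = 1 → d a = 0 → a = 1

variable {f}

namespace FlowData

variable {G : Type*} [Group G] (F : FlowData f G)

theorem d_one : F.d 1 = 0 := by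
  have := F.d_mul 1 1
  rw [mul_one, map_one, tau_one] at this
  exact left_eq_add.1 this

theorem ext_iff' {a b : G} : a = b ↔ F.pr a = F.pr b ∧ F.d a = F.d b := by
  refine ⟨by rintro rfl; simp, fun ⟨h1, h2⟩ => ?_⟩
  have hp : F.pr (a⁻¹ * b) = 1 := by simp [h1]
  have hd := F.d_mul a (a⁻¹ * b)
  rw [mul_inv_cancel_left, ← h2, left_eq_add] at hd
  exact inv_mul_eq_one.1 (F.d_inj _ hp ((tau (F.pr a)).injective (by rw [hd, map_zero])))

/-- A section of the projection to `H`. -/
noncomputable def sec (h : H) : G := (F.pr_surj h).choose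

theorem pr_sec (h : H) : F.pr (F.sec h) = h := (F.pr_surj h).choose_spec

/-- The flow of the section. -/
noncomputable def D (h : H) : H × X →₀ ℤ := F.d (F.sec h)

theorem bdry_D (h : H) : bdry f (F.D h) = Finsupp.single h 1 - Finsupp.single 1 1 := by
  rw [D, F.bdry_d, F.pr_sec]

/-- The twisting cocycle of the action of `g` on the coordinate `h`. -/
noncomputable def c (g : G) (h : H) : H × X →₀ ℤ :=
  F.d g + tau (F.pr g) (F.D ((F.pr g)⁻¹ * h)) - F.D h

theorem bdry_c (g : G) (h : H) : bdry f (F.c g h) = 0 := by
  simp [c, bdry_tau, F.bdry_d, F.bdry_D, tauV_single]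

theorem c_mul (g g' : G) (h : H) :
    F.c (g * g') h = F.c g h + tau (F.pr g) (F.c g' ((F.pr g)⁻¹ * h)) := by
  simp only [c, F.d_mul, map_mul, mul_inv_rev, mul_assoc, map_add, map_sub, tau_mul]
  abel

theorem c_of_pr_eq_one {a : G} (ha : F.pr a = 1) (h : H) : F.c a h = F.d a := by
  simp [c, ha, tau_one]

end FlowData

section Field

variable (K : Type*) [Field K]

local instance : IsDomain (Lau K (H × X)) := NoZeroDivisors.to_isDomain _

theorem homDeg_one {C D : Type*} [AddCommGroup C] [AddCommGroup D] (dd : C →+ D) :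
    HomDeg dd 0 (1 : AddMonoidAlgebra K C) := by
  rw [AddMonoidAlgebra.one_def]
  simpa using homDeg_single dd 0 (1 : K)

/-- Translation on Laurent polynomials. -/
noncomputable def sigma (h : H) : Lau K (H × X) ≃+* Lau K (H × X) :=
  (AddMonoidAlgebra.domCongr K K (tau h)).toRingEquiv

theorem sigma_single (h : H) (c : H × X →₀ ℤ) (a : K) :
    sigma K h (single c a) = single (tau h c) a := by
  simp [sigma]

theorem sigma_mul (h h' : H) (x : Lau K (H × X)) :
    sigma K (h * h') x = sigma K h (sigma K h' x) := by
  induction x using AddMonoidAlgebra.induction_linear with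
  | zero => simp
  | add a b ha hb => simp [ha, hb]
  | single c a => simp [sigma_single, tau_mul]

theorem sigma_one (x : Lau K (H × X)) : sigma K 1 x = x := by
  induction x using AddMonoidAlgebra.induction_linear with
  | zero => simp
  | add a b ha hb => simp [ha, hb]
  | single c a => simp [sigma_single, tau_one]

theorem sigma_homDeg (h : H) {δ : H →₀ ℤ} {x : Lau K (H × X)} (hx : HomDeg (bdry f) δ x) :
    HomDeg (bdry f) (tauV h δ) (sigma K h x) := by
  intro c hc
  have : c ∈ (AddMonoidAlgebra.domCongr K K (tau h) x).coeff.support := hc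
  rw [AddMonoidAlgebra.domCongr_support, Finset.mem_map] at this
  obtain ⟨c₀, hc₀, rfl⟩ := this
  simp [bdry_tau, hx c₀ hc₀]

/-- The fraction field of the Laurent polynomial ring. -/
abbrev LF (K : Type*) [Field K] (H X : Type*) := FractionRing (Lau K (H × X))

/-- Translation on the fraction field. -/
noncomputable def sigmaF (h : H) : LF K H X ≃+* LF K H X :=
  IsFractionRing.ringEquivOfRingEquiv (A := Lau K (H × X)) (B := Lau K (H × X))
    (K := LF K H X) (L := LF K H X) (sigma (X := X) K h)

theorem sigmaF_algebraMap (h : H) (x : Lau K (H × X)) :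
    sigmaF K h (algebraMap _ (LF K H X) x) = algebraMap _ _ (sigma K h x) := by
  simp [sigmaF]

theorem sigmaF_div (h : H) (x y : Lau K (H × X)) :
    sigmaF K h (algebraMap _ (LF K H X) x / algebraMap _ _ y)
      = algebraMap _ _ (sigma K h x) / algebraMap _ _ (sigma K h y) := by
  rw [map_div₀, sigmaF_algebraMap, sigmaF_algebraMap]

theorem sigmaF_mul (h h' : H) (x : LF K H X) :
    sigmaF K (h * h') x = sigmaF K h (sigmaF K h' x) := by
  obtain ⟨a, b, -, rfl⟩ := IsFractionRing.div_surjective (A := Lau K (H × X)) x
  simp [sigmaF_div, sigmaF_algebraMap, sigma_mul]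

theorem sigmaF_one (x : LF K H X) : sigmaF K 1 x = x := by
  obtain ⟨a, b, -, rfl⟩ := IsFractionRing.div_surjective (A := Lau K (H × X)) x
  simp [sigmaF_div, sigmaF_algebraMap, sigma_one]

/-- A monomial, in the fraction field. -/
noncomputable def T (c : H × X →₀ ℤ) : LF K H X := algebraMap _ _ (single c (1 : K))

theorem T_add (c c' : H × X →₀ ℤ) : T K (c + c') = T K c * T K c' := by
  simp [T, ← map_mul, single_mul_single]

theorem T_zero : T K (0 : H × X →₀ ℤ) = 1 := by
  simp [T, ← AddMonoidAlgebra.one_def]

theorem T_pow (c : H × X →₀ ℤ) (n : ℕ) : T K c ^ n = T K (n • c) := by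
  simp [T, ← map_pow, AddMonoidAlgebra.single_pow]

theorem sigmaF_T (h : H) (c : H × X →₀ ℤ) : sigmaF K h (T K c) = T K (tau h c) := by
  simp [T, sigmaF_algebraMap, sigma_single]

variable (f)

/-- The degree zero subfield. -/
noncomputable def L0 : Subfield (LF K H X) where
  carrier := {x | ∃ n q : Lau K (H × X), HomDeg (bdry f) 0 n ∧ HomDeg (bdry f) 0 q ∧ q ≠ 0 ∧
    x = algebraMap _ _ n / algebraMap _ _ q}
  mul_mem' := by
    rintro _ _ ⟨n, q, hn, hq, hq0, rfl⟩ ⟨n', q', hn', hq', hq0', rfl⟩
    exact ⟨n * n', q * q', by simpa using hn.mul hn', by simpa using hq.mul hq',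
      mul_ne_zero hq0 hq0', by rw [map_mul, map_mul, div_mul_div_comm]⟩
  one_mem' := ⟨1, 1, homDeg_one K (bdry f),
    homDeg_one K (bdry f), one_ne_zero, by simp⟩
  zero_mem' := ⟨0, 1, homDeg_zero _ _, homDeg_one K (bdry f),
    one_ne_zero, by simp⟩
  add_mem' := by
    rintro _ _ ⟨n, q, hn, hq, hq0, rfl⟩ ⟨n', q', hn', hq', hq0', rfl⟩
    refine ⟨n * q' + q * n', q * q', ?_, by simpa using hq.mul hq', mul_ne_zero hq0 hq0', ?_⟩
    · exact HomDeg.add (by simpa using hn.mul hq') (by simpa using hq.mul hn')
    · rw [div_add_div _ _ (by simpa using hq0) (by simpa using hq0')]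
      simp
  neg_mem' := by
    rintro _ ⟨n, q, hn, hq, hq0, rfl⟩
    exact ⟨-n, q, hn.neg, hq, hq0, by rw [map_neg, neg_div]⟩
  inv_mem' := by
    rintro _ ⟨n, q, hn, hq, hq0, rfl⟩
    by_cases hn0 : n = 0
    · exact ⟨0, 1, homDeg_zero _ _, homDeg_one K (bdry f),
        one_ne_zero, by simp [hn0]⟩
    · exact ⟨q, n, hq, hn, hn0, inv_div _ _⟩

theorem algebraMap_mem_L0 {n : Lau K (H × X)} (hn : HomDeg (bdry f) 0 n) :
    algebraMap _ (LF K H X) n ∈ L0 f K :=
  ⟨n, 1, hn, homDeg_one K (bdry f), one_ne_zero, by simp⟩

theorem T_mem_L0 {c : H × X →₀ ℤ} (hc : bdry f c = 0) : T K c ∈ L0 f K :=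
  algebraMap_mem_L0 f K (hc ▸ homDeg_single (bdry f) c (1 : K))

/-- Translation restricted to the degree zero subfield. -/
noncomputable def sigma0 (h : H) : L0 f K →+* L0 f K :=
  ((sigmaF K h : LF K H X ≃+* LF K H X).toRingHom.comp (L0 f K).subtype).codRestrict _ (by
    rintro ⟨_, n, q, hn, hq, hq0, rfl⟩
    refine ⟨sigma K h n, sigma K h q, by simpa using sigma_homDeg K h hn,
      by simpa using sigma_homDeg K h hq, by simpa using hq0, ?_⟩
    simp [sigmaF_div, sigmaF_algebraMap])

theorem coe_sigma0 (h : H) (x : L0 f K) : (sigma0 f K h x : LF K H X) = sigmaF K h x := rfl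

end Field

namespace FlowData

variable {K : Type*} [Field K] {G : Type*} [Group G] (F : FlowData f G)

local instance : IsDomain (Lau K (H × X)) := NoZeroDivisors.to_isDomain _

open Classical in
/-- Coordinates of an element of the group algebra. -/
noncomputable def iota (β : MonoidAlgebra K G) (h : H) : Lau K (H × X) :=
  β.coeff.sum fun g b => if F.pr g = h then single (F.d g - F.D h) b else 0

theorem iota_add (β β' : MonoidAlgebra K G) (h : H) :
    F.iota (β + β') h = F.iota β h + F.iota β' h := by
  classical
  simp only [iota, MonoidAlgebra.coeff_add]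
  exact Finsupp.sum_add_index' (fun g => by simp) (fun g b b' => by split_ifs <;> simp)

theorem iota_zero (h : H) : F.iota (0 : MonoidAlgebra K G) h = 0 := by
  classical simp [iota]

theorem iota_single (g : G) (b : K) [DecidableEq H] (h : H) :
    F.iota (MonoidAlgebra.single g b) h =
      if F.pr g = h then single (F.d g - F.D h) b else 0 := by
  classical
  simp only [iota, MonoidAlgebra.coeff_single]
  rw [Finsupp.sum_single_index (by simp)]
  split_ifs <;> simp_all

theorem iota_coeff (β : MonoidAlgebra K G) (g : G) :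
    (F.iota β (F.pr g)).coeff (F.d g - F.D (F.pr g)) = β.coeff g := by
  classical
  induction β using MonoidAlgebra.induction_linear with
  | zero => simp [iota_zero]
  | add a b ha hb => simp [iota_add, ha, hb]
  | single g' b =>
    rw [iota_single]
    by_cases hg : g' = g
    · subst hg; simp
    · by_cases hp : F.pr g' = F.pr g
      · have hd : F.d g' ≠ F.d g := fun hd => hg (F.ext_iff'.2 ⟨hp, hd⟩)
        simp [hp, hd, hg]
      · simp [hp, hg]

theorem homDeg_iota (β : MonoidAlgebra K G) (h : H) : HomDeg (bdry f) 0 (F.iota β h) := by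
  classical
  induction β using MonoidAlgebra.induction_linear with
  | zero => rw [iota_zero]; exact homDeg_zero _ _
  | add a b ha hb => rw [iota_add]; exact ha.add hb
  | single g b =>
    rw [iota_single]
    split_ifs with hp
    · have : bdry f (F.d g - F.D h) = 0 := by simp [F.bdry_d, F.bdry_D, hp]
      exact this ▸ homDeg_single (bdry f) _ b
    · exact homDeg_zero _ _

open Classical in
/-- The matrix of right multiplication. -/
noncomputable def entry (α : MonoidAlgebra K G) (h' h : H) : Lau K (H × X) :=
  α.coeff.sum fun g a =>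
    if h * F.pr g = h' then single (F.D h + tau h (F.d g) - F.D h') a else 0

theorem entry_add (α α' : MonoidAlgebra K G) (h' h : H) :
    F.entry (α + α') h' h = F.entry α h' h + F.entry α' h' h := by
  classical
  simp only [entry, MonoidAlgebra.coeff_add]
  exact Finsupp.sum_add_index' (fun g => by simp) (fun g b b' => by split_ifs <;> simp)

theorem entry_zero (h' h : H) : F.entry (0 : MonoidAlgebra K G) h' h = 0 := by
  classical simp [entry]

theorem entry_single (g : G) (a : K) [DecidableEq H] (h' h : H) :
    F.entry (MonoidAlgebra.single g a) h' h =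
      if h * F.pr g = h' then single (F.D h + tau h (F.d g) - F.D h') a else 0 := by
  classical
  simp only [entry, MonoidAlgebra.coeff_single]
  rw [Finsupp.sum_single_index (by simp)]
  split_ifs <;> simp_all

theorem homDeg_entry (α : MonoidAlgebra K G) (h' h : H) :
    HomDeg (bdry f) 0 (F.entry α h' h) := by
  classical
  induction α using MonoidAlgebra.induction_linear with
  | zero => rw [entry_zero]; exact homDeg_zero _ _
  | add a b ha hb => rw [entry_add]; exact ha.add hb
  | single g b =>
    rw [entry_single]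
    split_ifs with hp
    · have : bdry f (F.D h + tau h (F.d g) - F.D h') = 0 := by
        simp [bdry_tau, F.bdry_d, F.bdry_D, tauV_single, hp]
      exact this ▸ homDeg_single (bdry f) _ b
    · exact homDeg_zero _ _

theorem entry_equivariant (α : MonoidAlgebra K G) (g : G) (h' h : H) :
    F.entry α (F.pr g * h') (F.pr g * h) * single (F.c g (F.pr g * h)) 1
      = single (F.c g (F.pr g * h')) 1 * sigma K (F.pr g) (F.entry α h' h) := by
  classical
  induction α using MonoidAlgebra.induction_linear with
  | zero => simp [entry_zero]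
  | add a b ha hb => simp [entry_add, add_mul, mul_add, ha, hb]
  | single g' a =>
    rw [entry_single, entry_single]
    by_cases hp : h * F.pr g' = h'
    · rw [if_pos hp, if_pos (by rw [mul_assoc, hp])]
      simp only [sigma_single, single_mul_single, one_mul, mul_one]
      congr 1
      simp only [c, inv_mul_cancel_left, map_add, map_sub, tau_mul]
      abel
    · rw [if_neg hp, if_neg (by rw [mul_assoc]; simpa using hp)]
      simp

variable [Fintype H]

theorem entry_iota (α β : MonoidAlgebra K G) (h' : H) :
    ∑ h, F.entry α h' h * F.iota β h = F.iota (β * α) h' := by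
  classical
  induction β using MonoidAlgebra.induction_linear with
  | zero => simp [iota_zero]
  | add a b ha hb => simp [iota_add, add_mul, mul_add, Finset.sum_add_distrib, ha, hb]
  | single g b =>
    rw [Finset.sum_eq_single (F.pr g) (fun h _ hne => by simp [iota_single, Ne.symm hne])
      (by simp)]
    induction α using MonoidAlgebra.induction_linear with
    | zero => simp [iota_zero, entry_zero]
    | add x y hx hy => simp only [mul_add, iota_add, entry_add, add_mul, hx, hy]
    | single g' a =>
      rw [entry_single, MonoidAlgebra.single_mul_single, iota_single, iota_single, if_pos rfl,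
        map_mul]
      split_ifs with hp
      · rw [single_mul_single, F.d_mul, mul_comm a b]
        congr 1
        abel
      · simp

variable (K)

set_option synthInstance.maxHeartbeats 200000
set_option maxHeartbeats 800000

/-- Coordinates with values in the degree zero field. -/
noncomputable def iota0 (β : MonoidAlgebra K G) (h : H) : L0 f K :=
  ⟨algebraMap _ _ (F.iota β h), algebraMap_mem_L0 f K (F.homDeg_iota β h)⟩

/-- Right multiplication by `α`, as a linear map over the degree zero field. -/
noncomputable def rightMul (α : MonoidAlgebra K G) : (H → L0 f K) →ₗ[L0 f K] (H → L0 f K) where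
  toFun u h' := ∑ h, (⟨algebraMap _ _ (F.entry α h' h),
    algebraMap_mem_L0 f K (F.homDeg_entry α h' h)⟩ : L0 f K) * u h
  map_add' u v := by ext h'; simp [mul_add, Finset.sum_add_distrib]
  map_smul' r u := by
    ext h'
    simp only [Pi.smul_apply, smul_eq_mul, RingHom.id_apply, Finset.mul_sum]
    exact congrArg Subtype.val (Finset.sum_congr rfl fun h _ => mul_left_comm _ _ _)

/-- The semilinear action of `G`. -/
noncomputable def theta (g : G) (u : H → L0 f K) : H → L0 f K :=
  fun h => ⟨T K (F.c g h), T_mem_L0 f K (F.bdry_c g h)⟩ *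
    sigma0 f K (F.pr g) (u ((F.pr g)⁻¹ * h))

theorem rightMul_iota0 (α β : MonoidAlgebra K G) :
    F.rightMul K α (F.iota0 K β) = F.iota0 K (β * α) := by
  ext h'
  simp [rightMul, iota0, ← map_mul, ← map_sum, entry_iota]

theorem iota0_ne_zero {β : MonoidAlgebra K G} (hβ : β ≠ 0) : F.iota0 K β ≠ 0 := by
  intro h0
  apply hβ
  ext g
  have h1 := congrArg (fun x : L0 f K => (x : LF K H X)) (congrFun h0 (F.pr g))
  simp [iota0] at h1
  rw [← F.iota_coeff β g, h1]
  simp

theorem theta_add (g : G) (u v : H → L0 f K) :
    F.theta K g (u + v) = F.theta K g u + F.theta K g v := by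
  ext h; simp [theta, mul_add]

theorem theta_smul (g : G) (r : L0 f K) (u : H → L0 f K) :
    F.theta K g (r • u) = sigma0 f K (F.pr g) r • F.theta K g u := by
  ext h; simp [theta]; ring

theorem theta_mul (g g' : G) (u : H → L0 f K) :
    F.theta K (g * g') u = F.theta K g (F.theta K g' u) := by
  ext h
  simp [theta, coe_sigma0, F.c_mul, T_add, sigmaF_mul, sigmaF_T, mul_assoc]

theorem theta_mem_ker (α : MonoidAlgebra K G) (g : G) {u : H → L0 f K}
    (hu : F.rightMul K α u = 0) : F.rightMul K α (F.theta K g u) = 0 := by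
  ext h'
  obtain ⟨k', rfl⟩ : ∃ k', F.pr g * k' = h' := ⟨(F.pr g)⁻¹ * h', by simp⟩
  have key : ∀ k, algebraMap _ (LF K H X) (F.entry α (F.pr g * k') (F.pr g * k)) *
      T K (F.c g (F.pr g * k)) =
      T K (F.c g (F.pr g * k')) *
        sigmaF K (F.pr g) (algebraMap _ _ (F.entry α k' k)) := by
    intro k
    rw [T, T, sigmaF_algebraMap, ← map_mul, ← map_mul, F.entry_equivariant]
  have h0 := congrArg (fun x : L0 f K => sigmaF K (F.pr g) (x : LF K H X)) (congrFun hu k')
  simp [rightMul] at h0
  simp only [rightMul, theta, LinearMap.coe_mk, AddHom.coe_mk, AddSubmonoidClass.coe_finsetSum,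
    MulMemClass.coe_mul, coe_sigma0, Pi.zero_apply, ZeroMemClass.coe_zero]
  rw [← Equiv.sum_comp (Equiv.mulLeft (F.pr g))]
  simp only [Equiv.coe_mulLeft, inv_mul_cancel_left, ← mul_assoc (algebraMap _ (LF K H X) _), key]
  simp only [mul_assoc, inv_mul_cancel_left, ← Finset.mul_sum, h0, mul_zero]

end FlowData

end Vale.Agent.P201
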