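import Mathlib
import Vale.Agent.P201.Crossed

/-!
The group algebra of a flow extension of a finite group has no zero divisors.
-/

namespace Vale.Agent.P201

open AddMonoidAlgebra

section GCD

variable {R : Type*} [CommMonoidWithZero R] [GCDMonoid R] {ι : Type*}

theorem exists_gcd (s : Finset ι) (n : ι → R) : ∃ x, ∀ z, z ∣ x ↔ ∀ i ∈ s, z ∣ n i := by
  classical
  induction s using Finset.induction_on with
  | empty => exact ⟨0, by simp⟩
  | insert a t ha ih =>
    obtain ⟨x, hx⟩ := ih
    exact ⟨gcd (n a) x, fun z => by simp [dvd_gcd_iff, hx]⟩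

theorem dvd_mul_iff_of_gcd {a y : R} {m : ι → R} (ha : a ≠ 0)
    (hy : ∀ z, z ∣ y ↔ ∀ i, z ∣ m i) (z : R) : z ∣ a * y ↔ ∀ i, z ∣ a * m i := by
  refine ⟨fun h i => h.trans (mul_dvd_mul_left a ((hy y).1 dvd_rfl i)), fun h => ?_⟩
  obtain ⟨z', hz'⟩ : gcd z a ∣ z := gcd_dvd_left z a
  obtain ⟨a', ha'⟩ : gcd z a ∣ a := gcd_dvd_right z a
  have hg0 : gcd z a ≠ 0 := fun h0 => ha ((gcd_eq_zero_iff z a).1 h0).2
  have hrel : IsRelPrime z' a' := by
    intro d hdz hda
    have hdd : gcd z a * d ∣ gcd z a :=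
      dvd_gcd ((mul_dvd_mul_left _ hdz).trans hz'.symm.dvd)
        ((mul_dvd_mul_left _ hda).trans ha'.symm.dvd)
    exact isUnit_of_dvd_one ((mul_dvd_mul_iff_left hg0).1 (by rwa [mul_one]))
  have h3 : ∀ i, z' ∣ m i := by
    intro i
    refine hrel.dvd_of_dvd_mul_left ((mul_dvd_mul_iff_left hg0).1 ?_)
    rw [← hz', ← mul_assoc, ← ha']
    exact h i
  rw [hz']
  conv_rhs => rw [ha', mul_assoc]
  exact mul_dvd_mul_left _ (((hy z').2 h3).mul_left _)

theorem gcd_scale {a b x : R} {n : ι → R} {e : ι → ι} (ha : a ≠ 0) (hb : b ≠ 0)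
    (he : Function.Surjective e) (hx : ∀ z, z ∣ x ↔ ∀ i, z ∣ n i)
    (σ : R ≃* R) (hn : ∀ i, Associated (a * σ (n i)) (b * n (e i))) :
    Associated (a * σ x) (b * x) := by
  have hy : ∀ z, z ∣ σ x ↔ ∀ i, z ∣ σ (n i) := by
    intro z
    obtain ⟨z, rfl⟩ := σ.surjective z
    simp only [map_dvd_iff, hx]
  have hxe : ∀ z, z ∣ x ↔ ∀ i, z ∣ n (e i) := fun z =>
    (hx z).trans ⟨fun h i => h (e i), fun h i => (he i).choose_spec ▸ h (he i).choose⟩
  apply associated_of_dvd_dvd
  · rw [dvd_mul_iff_of_gcd hb hxe]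
    exact fun i => ((dvd_mul_iff_of_gcd ha hy _).1 dvd_rfl i).trans (hn i).dvd
  · rw [dvd_mul_iff_of_gcd ha hy]
    exact fun i => ((dvd_mul_iff_of_gcd hb hxe _).1 dvd_rfl i).trans (hn i).symm.dvd

end GCD

variable {H : Type*} [Group H] {X : Type*} {f : X → H} {G : Type*} [Group G]
  {K : Type*} [Field K]

local instance : IsDomain (Lau K (H × X)) := NoZeroDivisors.to_isDomain _

theorem tauV_sub_eq_of_const [Fintype H] (u : H →₀ ℤ) (h : ∀ g, tauV g u = u) :
    augV u = (Fintype.card H : ℤ) * u 1 := by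
  classical
  have hc : ∀ g, u g = u 1 := by
    intro g
    have := DFunLike.congr_fun (h g) g
    rw [tauV_apply, inv_mul_cancel] at this
    exact this.symm
  have : augV u = ∑ g, u g := by
    simp only [augV, Finsupp.liftAddHom_apply, AddMonoidHom.id_apply]
    exact Finsupp.sum_fintype _ _ (fun _ => rfl)
  rw [this, Finset.sum_congr rfl fun g _ => hc g]
  simp

/-- A crossed map of `G` into edge chains, which is multiplication by `k` on the kernel flows
and has principal boundary, forces `|H|` to divide `k`. -/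
theorem FlowData.card_dvd [Fintype H] (F : FlowData f G) (k : ℕ)
    (c : G → (H × X →₀ ℤ)) (c₀ : H × X →₀ ℤ)
    (hc : ∀ a b, c (a * b) = c a + tau (F.pr a) (c b))
    (hker : ∀ a, F.pr a = 1 → c a = k • F.d a)
    (hb : ∀ g, bdry f (c g) = tauV (F.pr g) (bdry f c₀) - bdry f c₀) :
    Fintype.card H ∣ k := by
  classical
  let e : G → (H × X →₀ ℤ) := fun g => k • F.d g - c g
  have he : ∀ a b, e (a * b) = e a + tau (F.pr a) (e b) := by
    intro a b
    simp only [e, F.d_mul, hc, map_sub, map_nsmul, nsmul_add]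
    abel
  have hek : ∀ a, F.pr a = 1 → e a = 0 := fun a ha => by simp [e, hker a ha]
  have hfac : ∀ g g', F.pr g = F.pr g' → e g = e g' := by
    intro g g' hp
    have h1 := he g (g⁻¹ * g')
    rw [mul_inv_cancel_left, hek (g⁻¹ * g') (by simp [hp]), map_zero, add_zero] at h1
    exact h1.symm
  let E : H → (H × X →₀ ℤ) := fun h => e (F.sec h)
  have hE : ∀ g, e g = E (F.pr g) := fun g => hfac _ _ (F.pr_sec _).symm
  have hEm : ∀ h h', E (h * h') = E h + tau h (E h') := by
    intro h h'
    have := he (F.sec h) (F.sec h')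
    rw [hE (F.sec h * F.sec h'), map_mul, F.pr_sec, F.pr_sec] at this
    exact this
  let v : H × X →₀ ℤ := -∑ u : H, (E u).filter fun p => p.1 = u
  have hv : ∀ p : H × X, v p = -E p.1 p := by
    intro p
    simp [v, Finsupp.finsetSum_apply, Finsupp.filter_apply]
  have hEv : ∀ h, E h = tau h v - v := by
    intro h
    ext p
    show E h p = _
    rw [Finsupp.sub_apply (tau h v) v p, tau_apply, hv, hv]
    have h1 := congrArg (fun z : H × X →₀ ℤ => z p) (hEm h (h⁻¹ * p.1))
    simp [mul_inv_cancel_left, tau_apply] at h1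
    linarith
  let u : H →₀ ℤ := Finsupp.single 1 (k : ℤ) - bdry f c₀ - bdry f v
  have hu : ∀ h, tauV h u = u := by
    intro h
    obtain ⟨g, rfl⟩ := F.pr_surj h
    have h1 : bdry f (e g) = bdry f (tau (F.pr g) v - v) := by rw [hE, hEv]
    simp only [e, map_sub, map_nsmul, F.bdry_d, hb, bdry_tau, smul_sub,
      Finsupp.smul_single, nsmul_eq_mul, mul_one] at h1
    simp only [u, map_sub, tauV_single, mul_one]
    rw [← sub_eq_zero] at h1 ⊢
    rw [← h1]
    abel
  have haug : augV u = (k : ℤ) := by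
    simp only [u, map_sub, augV_bdry, sub_zero]
    simp [augV]
  have := tauV_sub_eq_of_const u hu
  rw [haug] at this
  exact Int.natCast_dvd_natCast.1 ⟨u 1, this⟩

namespace FlowData

variable (F : FlowData f G)

/-- The crossed map extracted from the determinant of an invariant subspace. -/
theorem exists_crossed [Finite H] (k : ℕ) (lam : G → L0 f K)
    (hl0 : ∀ g, lam g ≠ 0)
    (hmul : ∀ a b, lam (a * b) = lam a * sigma0 f K (F.pr a) (lam b))
    (hker : ∀ a, F.pr a = 1 → (lam a : LF K H X) = T K (k • F.d a)) :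
    ∃ (c : G → (H × X →₀ ℤ)) (c₀ : H × X →₀ ℤ),
      (∀ a b, c (a * b) = c a + tau (F.pr a) (c b)) ∧
      (∀ a, F.pr a = 1 → c a = k • F.d a) ∧
      (∀ g, bdry f (c g) = tauV (F.pr g) (bdry f c₀) - bdry f c₀) := by
  classical
  let _ : Fintype H := Fintype.ofFinite H
  have : UniqueFactorizationMonoid (Lau K (H × X)) := Lau.uniqueFactorizationMonoid
  let _ : GCDMonoid (Lau K (H × X)) := UniqueFactorizationMonoid.toGCDMonoid _
  let j := algebraMap (Lau K (H × X)) (LF K H X)
  have hj : Function.Injective j := IsFractionRing.injective _ _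
  have hmem : ∀ x : L0 f K, ∃ n q : Lau K (H × X), HomDeg (bdry f) 0 n ∧ HomDeg (bdry f) 0 q ∧
      q ≠ 0 ∧ (x : LF K H X) = j n / j q := fun x => x.2
  choose num den hnum hden hden0 hx using hmem
  let m : H → L0 f K := fun h => lam (F.sec h)
  let q : Lau K (H × X) := ∏ h, den (m h)
  let n : H → Lau K (H × X) := fun h => num (m h) * ∏ h' ∈ Finset.univ.erase h, den (m h')
  have hq0 : q ≠ 0 := Finset.prod_ne_zero_iff.2 fun h _ => hden0 _
  have hprod : ∀ s : Finset H, HomDeg (bdry f) 0 (∏ h ∈ s, den (m h)) := by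
    intro s
    induction s using Finset.induction_on with
    | empty => simpa using homDeg_one K (bdry f)
    | insert a t ha ih => rw [Finset.prod_insert ha]; simpa using (hden _).mul ih
  have hn : ∀ h, (m h : LF K H X) = j (n h) / j q := by
    intro h
    have hqe : q = den (m h) * ∏ h' ∈ Finset.univ.erase h, den (m h') :=
      (Finset.mul_prod_erase _ _ (Finset.mem_univ h)).symm
    have hp0 : j (∏ h' ∈ Finset.univ.erase h, den (m h')) ≠ 0 := by
      rw [map_ne_zero_iff j hj]
      exact Finset.prod_ne_zero_iff.2 fun h' _ => hden0 _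
    rw [hqe, map_mul, map_mul, mul_div_mul_right _ _ hp0, ← hx]
  have hn0 : ∀ h, n h ≠ 0 := by
    intro h h0
    exact hl0 (F.sec h) (Subtype.ext (by simpa [h0] using hn h))
  obtain ⟨x, hxg⟩ := exists_gcd Finset.univ n
  have hxg' : ∀ z, z ∣ x ↔ ∀ i, z ∣ n i := fun z => (hxg z).trans (by simp)
  have hx0 : x ≠ 0 := by
    intro h0
    have h1 := (hxg' x).1 dvd_rfl 1
    rw [h0] at h1
    exact hn0 1 (zero_dvd_iff.1 h1)
  have hnd : HomDeg (bdry f) 0 (n 1) := by simpa [n] using (hnum _).mul (hprod _)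
  obtain ⟨c₀, hc₀⟩ := exists_homDeg_of_dvd (hn0 1) hnd ((hxg' x).1 dvd_rfl 1)
  have hX0 : j x / j q ≠ 0 :=
    div_ne_zero ((map_ne_zero_iff j hj).2 hx0) ((map_ne_zero_iff j hj).2 hq0)
  have hstep : ∀ g, ∃ (c : H × X →₀ ℤ) (b : K), b ≠ 0 ∧
      (lam g : LF K H X) * sigmaF K (F.pr g) (j x / j q) = j (single c b) * (j x / j q) ∧
      bdry f c = tauV (F.pr g) (bdry f c₀) - bdry f c₀ := by
    intro g
    set h := F.pr g
    obtain ⟨nn, p, hnn, hp, hp0, hlg⟩ := (lam g).2
    have hnn0 : nn ≠ 0 := by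
      rintro rfl
      exact hl0 g (Subtype.ext (by simpa using hlg))
    have hassoc : ∀ i, Associated (nn * q * (sigma K h).toMulEquiv (n i))
        (p * sigma K h q * n (h * i)) := by
      intro i
      set a := g * F.sec i * (F.sec (h * i))⁻¹ with ha
      have hpa : F.pr a = 1 := by simp [ha, F.pr_sec, h]
      have e1 : g * F.sec i = a * F.sec (h * i) := by simp [ha]
      have e2 := congrArg (fun z : L0 f K => (z : LF K H X))
        ((hmul g (F.sec i)).symm.trans ((congrArg lam e1).trans (hmul a (F.sec (h * i)))))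
      simp only [MulMemClass.coe_mul, coe_sigma0, hpa, sigmaF_one, hker a hpa, T] at e2
      rw [hlg, show (lam (F.sec i) : LF K H X) = j (n i) / j q from hn i,
        show (lam (F.sec (h * i)) : LF K H X) = j (n (h * i)) / j q from hn (h * i),
        map_div₀, sigmaF_algebraMap, sigmaF_algebraMap] at e2
      have hp' : j p ≠ 0 := (map_ne_zero_iff j hj).2 hp0
      have hq' : j q ≠ 0 := (map_ne_zero_iff j hj).2 hq0
      have hsq : j (sigma K h q) ≠ 0 := (map_ne_zero_iff j hj).2 (by simpa using hq0)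
      replace e2 : j nn / j p * (j (sigma K h (n i)) / j (sigma K h q))
          = j (single (k • F.d a) 1) * (j (n (h * i)) / j q) := e2
      rw [div_mul_div_comm, mul_div_assoc', div_eq_div_iff (mul_ne_zero hp' hsq) hq'] at e2
      refine Associated.trans (Associated.of_eq ?_)
        (associated_unit_mul_left _ _ (Lau.isUnit_single (c := k • F.d a) one_ne_zero))
      apply hj
      simp only [map_mul]
      show j nn * j q * j (sigma K h (n i)) = _
      linear_combination e2
    have hsx := gcd_scale (mul_ne_zero hnn0 hq0)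
      (mul_ne_zero hp0 (by simpa using hq0)) (mul_left_surjective h) hxg'
      (sigma K h).toMulEquiv hassoc
    obtain ⟨w, hw⟩ := hsx.symm
    obtain ⟨c, b, hcb, hb⟩ := Lau.eq_single_of_isUnit w.isUnit
    rw [hcb] at hw
    refine ⟨c, b, hb, ?_, ?_⟩
    · rw [hlg, map_div₀, sigmaF_algebraMap, sigmaF_algebraMap]
      have h2 := congrArg j hw
      simp only [map_mul] at h2
      have hp' : j p ≠ 0 := (map_ne_zero_iff j hj).2 hp0
      have hq' : j q ≠ 0 := (map_ne_zero_iff j hj).2 hq0
      have hsq : j (sigma K h q) ≠ 0 := (map_ne_zero_iff j hj).2 (by simpa using hq0)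
      replace h2 : j p * j (sigma K h q) * j x * j (single c b)
          = j nn * j q * j (sigma K h x) := h2
      show j nn / j p * (j (sigma K h x) / j (sigma K h q)) = j (single c b) * (j x / j q)
      rw [div_mul_div_comm, mul_div_assoc', div_eq_div_iff (mul_ne_zero hp' hsq) hq']
      linear_combination -h2
    · have hsq0 : HomDeg (bdry f) 0 (sigma K h q) := by
        rw [← map_zero (tauV h)]
        exact sigma_homDeg K h (hprod Finset.univ)
      have d1 : HomDeg (bdry f) (bdry f c₀ + bdry f c)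
          (p * sigma K h q * x * single c b) := by
        simpa using ((hp.mul hsq0).mul hc₀).mul (homDeg_single (bdry f) c b)
      have d2 : HomDeg (bdry f) (tauV h (bdry f c₀)) (nn * q * sigma K h x) := by
        simpa using (hnn.mul (hprod Finset.univ)).mul (sigma_homDeg K h hc₀)
      rw [hw] at d1
      have := d1.unique (mul_ne_zero (mul_ne_zero hnn0 hq0) (by simpa using hx0)) d2
      rw [← this]
      abel
  choose c b hb heq hbd using hstep
  have huniq : ∀ (g : G) (c' : H × X →₀ ℤ) (b' : K),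
      (lam g : LF K H X) * sigmaF K (F.pr g) (j x / j q) = j (single c' b') * (j x / j q) →
      c g = c' := by
    intro g c' b' h'
    have h1 := hj (mul_right_cancel₀ hX0 ((heq g).symm.trans h'))
    by_contra hne
    have h2 := congrArg (fun z : Lau K (H × X) => z.coeff (c g)) h1
    simp [Ne.symm hne, hb g] at h2
  refine ⟨c, c₀, ?_, ?_, hbd⟩
  · intro g g'
    apply huniq _ _ (b g * b g')
    rw [hmul, map_mul, MulMemClass.coe_mul, coe_sigma0, sigmaF_mul, mul_assoc, ← map_mul,
      heq g', map_mul, ← mul_assoc, sigmaF_algebraMap, sigma_single]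
    rw [show (lam g : LF K H X) * j (single (tau (F.pr g) (c g')) (b g')) *
      sigmaF K (F.pr g) (j x / j q) = j (single (tau (F.pr g) (c g')) (b g')) *
      ((lam g : LF K H X) * sigmaF K (F.pr g) (j x / j q)) by ring, heq g, ← mul_assoc,
      ← map_mul, single_mul_single, add_comm (tau (F.pr g) (c g')) (c g), mul_comm (b g') (b g)]
  · intro a ha
    apply huniq _ _ 1
    rw [ha, sigmaF_one, hker a ha, T]

set_option synthInstance.maxHeartbeats 400000 in
set_option maxHeartbeats 2000000 in
/-- The group algebra of a flow extension of a finite group has no zero divisors. -/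
theorem noZeroDivisors [Finite H] (F : FlowData f G) :
    NoZeroDivisors (MonoidAlgebra K G) := by
  classical
  let _ : Fintype H := Fintype.ofFinite H
  refine ⟨fun {β α} h => ?_⟩
  by_contra hne
  push Not at hne
  obtain ⟨hβ, hα⟩ := hne
  let W := LinearMap.ker (F.rightMul K α)
  have hWb : W ≠ ⊥ := by
    intro hb
    apply F.iota0_ne_zero K hβ
    have hm : F.iota0 K β ∈ W := by
      rw [LinearMap.mem_ker, rightMul_iota0, h]
      ext x; simp [iota0, iota_zero]
    rwa [hb, Submodule.mem_bot] at hm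
  have hWt : W ≠ ⊤ := by
    intro ht
    apply F.iota0_ne_zero K hα
    rw [← one_mul α, ← rightMul_iota0, ← LinearMap.mem_ker]
    show F.iota0 K 1 ∈ W
    rw [ht]
    exact Submodule.mem_top
  set k := Module.finrank (L0 f K) W with hk
  have hk1 : 0 < k := Module.finrank_pos_iff.2 (Submodule.nontrivial_iff_ne_bot.2 hWb)
  have hk2 : k < Fintype.card H := by
    rw [← Module.finrank_fintype_fun_eq_card (R := L0 f K) (η := H)]
    exact Submodule.finrank_lt hWt
  let B : Module.Basis (Fin k) (L0 f K) W := Module.finBasis _ _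
  let θ : G → W → W := fun g w => ⟨F.theta K g w, F.theta_mem_ker K α g w.2⟩
  let M : G → Matrix (Fin k) (Fin k) (L0 f K) := fun g => Matrix.of fun i j => B.repr (θ g (B j)) i
  have hθ : ∀ g (w : W), θ g w = ∑ i, (∑ j, M g i j * sigma0 f K (F.pr g) (B.repr w j)) • B i := by
    intro g w
    have hlin : θ g w = ∑ j, sigma0 f K (F.pr g) (B.repr w j) • θ g (B j) := by
      conv_lhs => rw [← B.sum_repr w]
      apply Subtype.ext
      simp only [θ, Submodule.coe_sum, Submodule.coe_smul]
      have hadd : ∀ (s : Finset (Fin k)) (u : Fin k → H → L0 f K),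
          F.theta K g (∑ j ∈ s, u j) = ∑ j ∈ s, F.theta K g (u j) := by
        intro s u
        exact map_sum (AddMonoidHom.mk' (F.theta K g) (F.theta_add K g)) u s
      rw [hadd]
      simp [theta_smul]
    rw [hlin]
    simp only [Finset.sum_smul]
    rw [Finset.sum_comm]
    refine Finset.sum_congr rfl fun j _ => ?_
    conv_lhs => rw [← B.sum_repr (θ g (B j)), Finset.smul_sum]
    refine Finset.sum_congr rfl fun i _ => ?_
    rw [smul_smul]
    congr 1
    exact mul_comm _ _
  have hθm : ∀ g g' w, θ (g * g') w = θ g (θ g' w) := fun g g' w =>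
    Subtype.ext (F.theta_mul K g g' w)
  have hM : ∀ g g', M (g * g') = M g * (M g').map (sigma0 f K (F.pr g)) := by
    intro g g'
    ext i j
    show ((B.repr (θ (g * g') (B j)) i : L0 f K) : LF K H X) = _
    rw [hθm, hθ g, B.repr_sum_self]
    simp [Matrix.mul_apply, M]
  have hMa : ∀ a, (ha : F.pr a = 1) →
      M a = Matrix.scalar (Fin k) (⟨T K (F.d a), T_mem_L0 f K (by simp [F.bdry_d, ha])⟩ : L0 f K) := by
    intro a ha
    ext i j
    have hs : θ a (B j) = (⟨T K (F.d a), T_mem_L0 f K (by simp [F.bdry_d, ha])⟩ : L0 f K) • B j := by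
      apply Subtype.ext
      funext x
      apply Subtype.ext
      simp [θ, theta, coe_sigma0, ha, F.c_of_pr_eq_one ha, sigmaF_one]
    show ((B.repr (θ a (B j)) i : L0 f K) : LF K H X) = _
    rw [hs, map_smul, Finsupp.smul_apply, smul_eq_mul, B.repr_self, Finsupp.single_apply]
    by_cases hij : i = j
    · subst hij; simp
    · simp [hij, Ne.symm hij]
  let lam : G → L0 f K := fun g => (M g).det
  have hlm : ∀ a b, lam (a * b) = lam a * sigma0 f K (F.pr a) (lam b) := by
    intro a b
    simp only [lam, hM, Matrix.det_mul, RingHom.map_det, RingHom.mapMatrix_apply]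
  have hla : ∀ a, F.pr a = 1 → (lam a : LF K H X) = T K (k • F.d a) := by
    intro a ha
    simp [lam, hMa a ha, T_pow]
  have hl0 : ∀ g, lam g ≠ 0 := by
    intro g hg0
    have h1 := hlm g g⁻¹
    have h2 := hla (g * g⁻¹) (by simp)
    rw [h1, hg0, zero_mul, mul_inv_cancel, d_one, smul_zero, T_zero] at h2
    exact zero_ne_one h2
  obtain ⟨c, c₀, hc1, hc2, hc3⟩ := F.exists_crossed k lam hl0 hlm hla
  exact absurd (Nat.le_of_dvd hk1 (F.card_dvd k c c₀ hc1 hc2 hc3)) (not_le.2 hk2)

end FlowData

end Vale.Agent.P201
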