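import Mathlib
import Vale.Agent.P201.Crossed

/-!
The Magnus flow of a free group relative to a homomorphism, and the description of the derived
subgroup of the kernel.
-/

namespace Vale.Agent.P201

variable {X : Type*} {Q : Type*} [Group Q] (ψ : FreeGroup X →* Q)

/-- The action of `Q` on edge chains. -/
noncomputable def edgeAct (Q X : Type*) [Group Q] :
    Q →* MulAut (Multiplicative (Q × X →₀ ℤ)) where
  toFun q := AddEquiv.toMultiplicative (tau (H := Q) q)
  map_one' := by ext c; simp [tau_one]
  map_mul' a b := by ext c; simp [tau_mul]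

/-- The Magnus embedding. -/
noncomputable def flowHom :
    FreeGroup X →* Multiplicative (Q × X →₀ ℤ) ⋊[edgeAct Q X] Q :=
  FreeGroup.lift fun x => ⟨Multiplicative.ofAdd (Finsupp.single (1, x) 1), ψ (FreeGroup.of x)⟩

theorem flowHom_right (w : FreeGroup X) : (flowHom ψ w).right = ψ w := by
  have : SemidirectProduct.rightHom.comp (flowHom ψ) = ψ := by
    ext x; simp [flowHom, SemidirectProduct.rightHom]
  exact DFunLike.congr_fun this w

/-- The flow of a word: its edge chain in the Cayley graph of `Q`. -/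
noncomputable def flow (w : FreeGroup X) : Q × X →₀ ℤ := (flowHom ψ w).left.toAdd

theorem flow_of (x : X) : flow ψ (FreeGroup.of x) = Finsupp.single (1, x) 1 := by
  simp [flow, flowHom]

theorem flow_mul (v w : FreeGroup X) : flow ψ (v * w) = flow ψ v + tau (ψ v) (flow ψ w) := by
  simp only [flow, map_mul, SemidirectProduct.mul_left, toAdd_mul, flowHom_right]
  rfl

theorem flow_one : flow ψ (1 : FreeGroup X) = 0 := by simp [flow]

theorem flow_inv (w : FreeGroup X) : flow ψ w⁻¹ = - tau (ψ w)⁻¹ (flow ψ w) := by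
  have h := flow_mul ψ w⁻¹ w
  rw [inv_mul_cancel, flow_one, map_inv] at h
  exact eq_neg_of_add_eq_zero_left h.symm

theorem bdry_flow (w : FreeGroup X) :
    bdry (fun x => ψ (FreeGroup.of x)) (flow ψ w) =
      Finsupp.single (ψ w) 1 - Finsupp.single 1 1 := by
  induction w using FreeGroup.induction_on with
  | C1 => simp [flow_one]
  | of x => simp [flow_of, bdry_single]
  | inv_of x h => rw [flow_inv, map_neg, bdry_tau, flow_of, bdry_single, map_sub, tauV_single,
      tauV_single, one_mul, mul_one, inv_mul_cancel, map_inv, neg_sub]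
  | mul v w hv hw =>
    rw [flow_mul, map_add, bdry_tau, hv, hw, map_sub, tauV_single, tauV_single, map_mul, mul_one]
    abel

/-- The flow for `Q` is the image of the universal flow. -/
theorem flow_eq_mapDomain (w : FreeGroup X) :
    flow ψ w = (flow (MonoidHom.id (FreeGroup X)) w).mapDomain fun u => (ψ u.1, u.2) := by
  have hτ : ∀ (v : FreeGroup X) (c : FreeGroup X × X →₀ ℤ),
      (tau v c).mapDomain (fun u => (ψ u.1, u.2)) =
        tau (ψ v) (c.mapDomain fun u => (ψ u.1, u.2)) := by
    intro v c
    induction c using Finsupp.induction_linear with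
    | zero => simp
    | add a b ha hb => simp [Finsupp.mapDomain_add, ha, hb]
    | single u n =>
      obtain ⟨u, x⟩ := u
      simp [tau_single, Finsupp.mapDomain_single]
  induction w using FreeGroup.induction_on with
  | C1 => simp [flow_one]
  | of x => simp [flow_of, Finsupp.mapDomain_single]
  | inv_of x h =>
    rw [flow_inv, flow_inv, h, ← Finsupp.mapDomain.addMonoidHom_apply,
      ← Finsupp.mapDomain.addMonoidHom_apply, map_neg]
    simp only [Finsupp.mapDomain.addMonoidHom_apply, MonoidHom.id_apply, hτ, map_inv]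
  | mul v w hv hw =>
    rw [flow_mul, flow_mul, Finsupp.mapDomain_add, hτ, ← hv, ← hw]
    rfl

theorem flow_eq_zero_of_mem_commutator {w : FreeGroup X} (hw : w ∈ ⁅ψ.ker, ψ.ker⁆) :
    flow ψ w = 0 := by
  let Z : Subgroup (FreeGroup X) :=
    { carrier := {v | ψ v = 1 ∧ flow ψ v = 0}
      one_mem' := ⟨map_one ψ, flow_one ψ⟩
      mul_mem' := fun {a b} ha hb => ⟨by rw [map_mul, ha.1, hb.1, one_mul],
        by rw [flow_mul, ha.2, hb.2, map_zero, add_zero]⟩
      inv_mem' := fun {a} ha => ⟨by rw [map_inv, ha.1, inv_one],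
        by rw [flow_inv, ha.2, map_zero, neg_zero]⟩ }
  have hle : ⁅ψ.ker, ψ.ker⁆ ≤ Z := by
    rw [Subgroup.commutator_le]
    intro a ha b hb
    rw [MonoidHom.mem_ker] at ha hb
    refine ⟨by simp [commutatorElement_def, ha, hb], ?_⟩
    simp [commutatorElement_def, flow_mul, flow_inv, ha, hb, tau_one]
  exact (hle hw).2

theorem mem_commutator_ker_iff (hψ : Function.Surjective ψ) (w : FreeGroup X) :
    w ∈ ⁅ψ.ker, ψ.ker⁆ ↔ ψ w = 1 ∧ flow ψ w = 0 := by
  constructor
  · intro hw
    refine ⟨?_, flow_eq_zero_of_mem_commutator ψ hw⟩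
    exact MonoidHom.mem_ker.1 (Subgroup.commutator_le_left ψ.ker ψ.ker hw)
  · rintro ⟨hw1, hw2⟩
    let s : Q → FreeGroup X := fun q => (hψ q).choose
    have hs : ∀ q, ψ (s q) = q := fun q => (hψ q).choose_spec
    have hmem : ∀ q v, s q * v * (s (q * ψ v))⁻¹ ∈ ψ.ker := by
      intro q v
      simp [MonoidHom.mem_ker, hs]
    let cl : Q → FreeGroup X → Additive (Abelianization ψ.ker) := fun q v =>
      Additive.ofMul (Abelianization.of (⟨_, hmem q v⟩ : ψ.ker))
    have hcl : ∀ q v v', cl q (v * v') = cl q v + cl (q * ψ v) v' := by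
      intro q v v'
      simp only [cl, ← ofMul_mul, ← map_mul]
      congr 2
      ext
      simp [mul_assoc]
    let Φ : (Q × X →₀ ℤ) →+ Additive (Abelianization ψ.ker) :=
      Finsupp.liftAddHom fun u => (smulAddHom ℤ _).flip (cl u.1 (FreeGroup.of u.2))
    have key : ∀ v, ∀ q, Φ (tau q (flow ψ v)) = cl q v := by
      intro v
      induction v using FreeGroup.induction_on with
      | C1 =>
        intro q
        have := hcl q 1 1
        simp only [mul_one, map_one] at this
        rw [flow_one, map_zero, map_zero]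
        exact (left_eq_add.1 this).symm
      | of x =>
        intro q
        simp [flow_of, tau_single, Φ]
      | inv_of x h =>
        intro q
        have h1 : cl q 1 = 0 := by
          have := hcl q 1 1
          simp only [mul_one, map_one] at this
          exact left_eq_add.1 this
        have h0 := hcl q (FreeGroup.of x)⁻¹ (FreeGroup.of x)
        rw [inv_mul_cancel, h1] at h0
        rw [flow_inv, map_neg, map_neg, ← tau_mul, h, map_inv] at *
        rw [eq_neg_of_add_eq_zero_left h0.symm]
      | mul v v' hv hv' =>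
        intro q
        rw [flow_mul, map_add, map_add, ← tau_mul, hv, hv', hcl]
    have h0 : cl 1 w = 0 := by rw [← key, hw2, map_zero, map_zero]
    have h1 : Abelianization.of (⟨_, hmem 1 w⟩ : ψ.ker) = 1 := h0
    rw [← MonoidHom.mem_ker, Abelianization.ker_of] at h1
    have h2 : (⟨_, hmem 1 w⟩ : ψ.ker).1 ∈ (commutator ψ.ker).map ψ.ker.subtype :=
      Subgroup.mem_map_of_mem ψ.ker.subtype h1
    rw [commutator_def, Subgroup.map_commutator, ← MonoidHom.range_eq_map,
      Subgroup.range_subtype] at h2
    have h3 := (Subgroup.commutator_normal ψ.ker ψ.ker).conj_mem _ h2 (s 1)⁻¹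
    simpa [hw1, mul_assoc] using h3

/-- The flow structure on `FreeGroup X ⧸ ⁅R, R⁆`, when `ψ` is onto with kernel `R`. -/
noncomputable def flowData (hψ : Function.Surjective ψ) :
    FlowData (fun x => ψ (FreeGroup.of x)) (FreeGroup X ⧸ ⁅ψ.ker, ψ.ker⁆) where
  pr := QuotientGroup.lift _ ψ (Subgroup.commutator_le_left ψ.ker ψ.ker)
  d := Quotient.lift (flow ψ) (by
    intro a b hab
    have hab' : a⁻¹ * b ∈ ⁅ψ.ker, ψ.ker⁆ := QuotientGroup.leftRel_apply.1 hab
    obtain ⟨h1, h2⟩ := (mem_commutator_ker_iff ψ hψ _).1 hab'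
    rw [flow_mul, flow_inv, map_inv] at h2
    rw [neg_add_eq_zero] at h2
    exact (tau (ψ a)⁻¹).injective h2)
  pr_surj := fun q => by
    obtain ⟨v, rfl⟩ := hψ q
    exact ⟨(v : FreeGroup X ⧸ ⁅ψ.ker, ψ.ker⁆), rfl⟩
  d_mul := fun a b => QuotientGroup.induction_on a fun v => QuotientGroup.induction_on b fun w =>
    flow_mul ψ v w
  bdry_d := fun a => QuotientGroup.induction_on a fun v => bdry_flow ψ v
  d_inj := fun a => QuotientGroup.induction_on a fun v h1 h2 =>
    (QuotientGroup.eq_one_iff v).2 ((mem_commutator_ker_iff ψ hψ v).2 ⟨h1, h2⟩)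

end Vale.Agent.P201
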