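import Mathlib
import Vale.Agent.P201.CrossedDomain
import Vale.Agent.P201.Magnus

/-!
Free presentations with finitely approximable quotient: `K[F / R']` is a domain and
`F / R'` is again finitely approximable.
-/

namespace Vale.Agent.P201

/-- `R` agrees on every finite set of words with a normal subgroup of finite index. -/
def Approximable {X : Type*} (R : Subgroup (FreeGroup X)) : Prop :=
  ∀ W : Finset (FreeGroup X), ∃ N : Subgroup (FreeGroup X), N.Normal ∧ N.FiniteIndex ∧
    ∀ w ∈ W, (w ∈ R ↔ w ∈ N)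

theorem mapDomain_eq_zero_iff_of_agree {A B C M : Type*} [AddCommMonoid M] {f : A → B} {g : A → C}
    (c : A →₀ M) (h : ∀ a ∈ c.support, ∀ b ∈ c.support, (f a = f b ↔ g a = g b))
    (hf : c.mapDomain f = 0) : c.mapDomain g = 0 := by
  classical
  ext x
  rw [Finsupp.zero_apply]
  by_cases hx : ∃ a ∈ c.support, g a = x
  · obtain ⟨a, ha, rfl⟩ := hx
    have h1 : (c.mapDomain f) (f a) = 0 := by rw [hf]; rfl
    rw [Finsupp.mapDomain, Finsupp.sum_apply, Finsupp.sum] at h1 ⊢
    refine Eq.trans (Finset.sum_congr rfl fun b hb => ?_) h1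
    simp only [Finsupp.single_apply]
    by_cases hab : f b = f a
    · rw [if_pos hab, if_pos ((h b hb a ha).1 hab)]
    · rw [if_neg hab, if_neg fun hg => hab ((h b hb a ha).2 hg)]
  · rw [← Finsupp.notMem_support_iff]
    intro hm
    obtain ⟨a, ha, hax⟩ := Finset.mem_image.1 (Finsupp.mapDomain_support hm)
    exact hx ⟨a, ha, hax⟩

theorem noZeroDivisors_of_ker_eq {X Q : Type*} [Group Q] [Finite Q] (ψ : FreeGroup X →* Q)
    (hψ : Function.Surjective ψ) (N : Subgroup (FreeGroup X)) [N.Normal] (hk : ψ.ker = N)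
    (K : Type*) [Field K] : NoZeroDivisors (MonoidAlgebra K (FreeGroup X ⧸ ⁅N, N⁆)) := by
  subst hk
  exact (flowData ψ hψ).noZeroDivisors

variable {X : Type*}

theorem mem_commutator_iff_flow (R : Subgroup (FreeGroup X)) [R.Normal] (w : FreeGroup X) :
    w ∈ ⁅R, R⁆ ↔ w ∈ R ∧
      (flow (MonoidHom.id (FreeGroup X)) w).mapDomain
        (fun u => ((u.1 : FreeGroup X ⧸ R), u.2)) = 0 := by
  have h := mem_commutator_ker_iff (QuotientGroup.mk' R) (QuotientGroup.mk'_surjective R) w
  rw [QuotientGroup.ker_mk', flow_eq_mapDomain] at h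
  simpa [QuotientGroup.eq_one_iff] using h

/-- The derived subgroup of `R` agrees on finite sets with derived subgroups of finite-index
normal subgroups. -/
theorem Approximable.derived {R : Subgroup (FreeGroup X)} [R.Normal] (h : Approximable R)
    (W : Finset (FreeGroup X)) :
    ∃ N : Subgroup (FreeGroup X), N.Normal ∧ N.FiniteIndex ∧
      ∀ w ∈ W, (w ∈ ⁅R, R⁆ ↔ w ∈ ⁅N, N⁆) := by
  classical
  let U : Finset (FreeGroup X) := W.biUnion fun w =>
    ((flow (MonoidHom.id (FreeGroup X)) w).support ×ˢ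
      (flow (MonoidHom.id (FreeGroup X)) w).support).image fun p => p.1.1⁻¹ * p.2.1
  obtain ⟨N, hN, hNf, hag⟩ := h (W ∪ U)
  refine ⟨N, hN, hNf, fun w hw => ?_⟩
  rw [mem_commutator_iff_flow R, mem_commutator_iff_flow N,
    hag w (Finset.mem_union_left _ hw)]
  have hsupp : ∀ a ∈ (flow (MonoidHom.id (FreeGroup X)) w).support,
      ∀ b ∈ (flow (MonoidHom.id (FreeGroup X)) w).support,
      (((a.1 : FreeGroup X ⧸ R), a.2) = ((b.1 : FreeGroup X ⧸ R), b.2) ↔
        ((a.1 : FreeGroup X ⧸ N), a.2) = ((b.1 : FreeGroup X ⧸ N), b.2)) := by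
    intro a ha b hb
    simp only [Prod.mk.injEq, QuotientGroup.eq]
    refine and_congr_left fun _ => hag _ (Finset.mem_union_right _ ?_)
    exact Finset.mem_biUnion.2 ⟨w, hw, Finset.mem_image.2
      ⟨(a, b), Finset.mem_product.2 ⟨ha, hb⟩, rfl⟩⟩
  refine and_congr_right fun _ => ⟨mapDomain_eq_zero_iff_of_agree _ hsupp, ?_⟩
  exact mapDomain_eq_zero_iff_of_agree _ fun a ha b hb => (hsupp a ha b hb).symm

theorem exists_finite_index_avoiding (N : Subgroup (FreeGroup X)) [N.Normal] [N.FiniteIndex]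
    (W : Finset (FreeGroup X)) :
    ∃ M : Subgroup (FreeGroup X), M.Normal ∧ M.FiniteIndex ∧
      ∀ w ∈ W, (w ∈ ⁅N, N⁆ ↔ w ∈ M) := by
  classical
  let Q := FreeGroup X ⧸ N
  let d : FreeGroup X → (Q × X →₀ ℤ) := flow (QuotientGroup.mk' N)
  let X₀ : Finset X := W.biUnion fun w => (d w).support.image Prod.snd
  let m : ℕ := (∑ w ∈ W, ∑ u ∈ (d w).support, (d w u).natAbs) + 1
  have : NeZero m := ⟨Nat.succ_ne_zero _⟩
  let red : (Q × X →₀ ℤ) →+ (Q × X₀ → ZMod m) :=
    AddMonoidHom.mk' (fun c u => (c (u.1, (u.2 : X)) : ZMod m)) (fun a b => by ext u; simp)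
  let act : Q →* MulAut (Multiplicative (Q × X₀ → ZMod m)) :=
    { toFun := fun q => AddEquiv.toMultiplicative
        { toFun := fun c u => c (q⁻¹ * u.1, u.2)
          invFun := fun c u => c (q * u.1, u.2)
          left_inv := fun c => by ext u; simp
          right_inv := fun c => by ext u; simp
          map_add' := fun a b => by ext u; simp }
      map_one' := by ext c; simp
      map_mul' := fun a b => by
        apply MulEquiv.ext
        intro c
        apply Multiplicative.toAdd.injective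
        funext u
        simp [mul_assoc] }
  let ρ : FreeGroup X →* Multiplicative (Q × X₀ → ZMod m) ⋊[act] Q :=
    MonoidHom.mk' (fun w => ⟨Multiplicative.ofAdd (red (d w)), QuotientGroup.mk' N w⟩) (by
      intro a b
      refine SemidirectProduct.ext ?_ (map_mul (QuotientGroup.mk' N) a b)
      rw [SemidirectProduct.mul_left]
      apply Multiplicative.toAdd.injective
      funext u
      simp [d, red, act, flow_mul, tau_apply]
      rfl)
  have hfin : Finite (Multiplicative (Q × X₀ → ZMod m) ⋊[act] Q) :=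
    Finite.of_equiv _ SemidirectProduct.equivProd.symm
  refine ⟨ρ.ker, inferInstance, inferInstance, fun w hw => ?_⟩
  have h0 := mem_commutator_ker_iff (QuotientGroup.mk' N) (QuotientGroup.mk'_surjective N) w
  rw [QuotientGroup.ker_mk'] at h0
  rw [h0, MonoidHom.mem_ker]
  constructor
  · rintro ⟨h1, h2⟩
    refine SemidirectProduct.ext ?_ h1
    show Multiplicative.ofAdd (red (d w)) = 1
    rw [show d w = 0 from h2, map_zero]
    rfl
  · intro h
    refine ⟨congrArg SemidirectProduct.right h, ?_⟩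
    ext u
    show d w u = 0
    by_contra hu
    have hu' : u ∈ (d w).support := Finsupp.mem_support_iff.2 hu
    have hx : u.2 ∈ X₀ := Finset.mem_biUnion.2 ⟨w, hw, Finset.mem_image.2 ⟨u, hu', rfl⟩⟩
    have h1 : red (d w) = 0 :=
      congrArg (fun z : Multiplicative (Q × X₀ → ZMod m) ⋊[act] Q => z.left.toAdd) h
    have h2 := congrFun h1 (u.1, ⟨u.2, hx⟩)
    have h3 : ((d w u : ℤ) : ZMod m) = 0 := h2
    rw [ZMod.intCast_zmod_eq_zero_iff_dvd] at h3
    have hlt : (d w u).natAbs < m := by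
      have e1 : (d w u).natAbs ≤ ∑ u ∈ (d w).support, (d w u).natAbs :=
        Finset.single_le_sum (f := fun u => (d w u).natAbs) (fun _ _ => Nat.zero_le _) hu'
      have e2 : (∑ u ∈ (d w).support, (d w u).natAbs)
          ≤ ∑ w ∈ W, ∑ u ∈ (d w).support, (d w u).natAbs :=
        Finset.single_le_sum (f := fun w => ∑ u ∈ (d w).support, (d w u).natAbs)
          (fun _ _ => Nat.zero_le _) hw
      exact Nat.lt_succ_of_le (e1.trans e2)
    have h4 : m ∣ (d w u).natAbs := Int.natAbs_natCast m ▸ Int.natAbs_dvd_natAbs.2 h3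
    exact hu (Int.natAbs_eq_zero.1 (Nat.eq_zero_of_dvd_of_lt h4 hlt))

theorem Approximable.commutator {R : Subgroup (FreeGroup X)} [R.Normal] (h : Approximable R) :
    Approximable ⁅R, R⁆ := by
  intro W
  obtain ⟨N, hN, hNf, hag⟩ := h.derived W
  obtain ⟨M, hM, hMf, hag'⟩ := exists_finite_index_avoiding N W
  exact ⟨M, hM, hMf, fun w hw => (hag w hw).trans (hag' w hw)⟩

/-- Group algebras of `F / R'` have no zero divisors, for approximable `R`. -/
theorem Approximable.noZeroDivisors {R : Subgroup (FreeGroup X)} [R.Normal] (h : Approximable R)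
    (K : Type*) [Field K] : NoZeroDivisors (MonoidAlgebra K (FreeGroup X ⧸ ⁅R, R⁆)) := by
  classical
  refine ⟨fun {α β} hab => ?_⟩
  let α' : MonoidAlgebra K (FreeGroup X) :=
    MonoidAlgebra.mapDomain (fun g : FreeGroup X ⧸ ⁅R, R⁆ => g.out) α
  let β' : MonoidAlgebra K (FreeGroup X) :=
    MonoidAlgebra.mapDomain (fun g : FreeGroup X ⧸ ⁅R, R⁆ => g.out) β
  let S := α'.coeff.support ∪ β'.coeff.support ∪ (α' * β').coeff.support
  obtain ⟨N, hN, hNf, hag⟩ := h.derived ((S ×ˢ S).image fun p => p.1⁻¹ * p.2)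
  have heqv : ∀ a ∈ S, ∀ b ∈ S,
      ((a : FreeGroup X ⧸ ⁅R, R⁆) = b ↔ (a : FreeGroup X ⧸ ⁅N, N⁆) = b) := by
    intro a ha b hb
    rw [QuotientGroup.eq, QuotientGroup.eq]
    exact hag _ (Finset.mem_image.2 ⟨(a, b), Finset.mem_product.2 ⟨ha, hb⟩, rfl⟩)
  have hdom : NoZeroDivisors (MonoidAlgebra K (FreeGroup X ⧸ ⁅N, N⁆)) :=
    noZeroDivisors_of_ker_eq (QuotientGroup.mk' N) (QuotientGroup.mk'_surjective N) N
      (QuotientGroup.ker_mk' N) K
  let p : MonoidAlgebra K (FreeGroup X) →+* MonoidAlgebra K (FreeGroup X ⧸ ⁅N, N⁆) :=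
    MonoidAlgebra.mapDomainRingHom K (QuotientGroup.mk' ⁅N, N⁆)
  let r : MonoidAlgebra K (FreeGroup X) →+* MonoidAlgebra K (FreeGroup X ⧸ ⁅R, R⁆) :=
    MonoidAlgebra.mapDomainRingHom K (QuotientGroup.mk' ⁅R, R⁆)
  have hzero : ∀ z : MonoidAlgebra K (FreeGroup X), z.coeff.support ⊆ S →
      (r z = 0 ↔ p z = 0) := by
    intro z hz
    rw [← MonoidAlgebra.coeff_eq_zero, ← MonoidAlgebra.coeff_eq_zero]
    simp only [p, r, MonoidAlgebra.mapDomainRingHom_apply, MonoidAlgebra.coeff_mapDomain]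
    exact ⟨mapDomain_eq_zero_iff_of_agree _ fun a ha b hb => heqv a (hz ha) b (hz hb),
      mapDomain_eq_zero_iff_of_agree _ fun a ha b hb => (heqv a (hz ha) b (hz hb)).symm⟩
  have hr : ∀ γ : MonoidAlgebra K (FreeGroup X ⧸ ⁅R, R⁆),
      r (MonoidAlgebra.mapDomain (fun g : FreeGroup X ⧸ ⁅R, R⁆ => g.out) γ) = γ := by
    intro γ
    ext x
    simp only [r, MonoidAlgebra.mapDomainRingHom_apply, MonoidAlgebra.coeff_mapDomain,
      ← Finsupp.mapDomain_comp]
    rw [show ((QuotientGroup.mk' ⁅R, R⁆) ∘ fun g : FreeGroup X ⧸ ⁅R, R⁆ => g.out) = id from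
      funext fun g => QuotientGroup.out_eq' g, Finsupp.mapDomain_id]
  have h0 : p (α' * β') = 0 := (hzero _ Finset.subset_union_right).1 (by rw [map_mul, hr, hr, hab])
  rw [map_mul] at h0
  rcases mul_eq_zero.1 h0 with h1 | h1
  · left
    rw [← hr α]
    exact (hzero α' (Finset.subset_union_left.trans Finset.subset_union_left)).2 h1
  · right
    rw [← hr β]
    exact (hzero β' (Finset.subset_union_right.trans Finset.subset_union_left)).2 h1

/-- The iterated derived subgroups of an approximable subgroup are approximable. -/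
theorem Approximable.derivedSeries {R : Subgroup (FreeGroup X)} [R.Normal] (h : Approximable R) :
    ∀ k, ((_root_.derivedSeries R k).map R.subtype).Normal ∧
      Approximable ((_root_.derivedSeries R k).map R.subtype) := by
  intro k
  induction k with
  | zero =>
    rw [derivedSeries_zero, ← MonoidHom.range_eq_map, Subgroup.range_subtype]
    exact ⟨inferInstance, h⟩
  | succ k ih =>
    rw [derivedSeries_succ, Subgroup.map_commutator]
    have := ih.1
    exact ⟨inferInstance, ih.2.commutator⟩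

end Vale.Agent.P201
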