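import Mathlib

/-!
Basic lemmas about the left annihilator problem in group algebras of torsion-free groups.
-/

namespace Vale.Agent.P201

open MonoidAlgebra

variable {K : Type*} [Field K] {G : Type*} [Group G]

/-- If a translate of a finite nonempty set is the set itself, the translating element has
finite order. -/
theorem isOfFinOrder_of_mul_mem {g : G} (S : Finset G) (hS : S.Nonempty)
    (h : ∀ s ∈ S, g * s ∈ S) : IsOfFinOrder g := by
  obtain ⟨s, hs⟩ := hS
  have hpow : ∀ n : ℕ, g ^ n * s ∈ S := by
    intro n
    induction n with
    | zero => simpa using hs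
    | succ n ih => rw [pow_succ', mul_assoc]; exact h _ ih
  by_contra hg
  have hinj : Function.Injective fun n : ℕ => g ^ n * s :=
    (mul_left_injective s).comp (injective_pow_iff_not_isOfFinOrder.2 hg)
  exact not_injective_infinite_finite
    (fun n : ℕ => (⟨g ^ n * s, hpow n⟩ : {x // x ∈ S}))
    (fun a b hab => hinj (congrArg Subtype.val hab))

/-- A binomial is not a zero divisor in the group algebra of a torsion-free group. -/
theorem binomial_mul_ne_zero (htf : ∀ g : G, IsOfFinOrder g → g = 1) {g h : G} (hgh : g ≠ h)
    {a b : K} (ha : a ≠ 0) (hb : b ≠ 0) {β : MonoidAlgebra K G} (hβ : β ≠ 0) :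
    (single g a + single h b) * β ≠ 0 := by
  intro h0
  have hc : ∀ q, a * β.coeff (g⁻¹ * q) + b * β.coeff (h⁻¹ * q) = 0 := by
    intro q
    have := congrArg (fun x : MonoidAlgebra K G => x.coeff q) h0
    simpa [add_mul, coeff_single_mul_apply] using this
  have hne : β.coeff.support.Nonempty := by
    rw [Finsupp.support_nonempty_iff]
    simpa using hβ
  have hmem : ∀ s ∈ β.coeff.support, (h⁻¹ * g) * s ∈ β.coeff.support := by
    intro s hs
    rw [Finsupp.mem_support_iff] at hs ⊢
    intro hz
    have := hc (g * s)
    rw [inv_mul_cancel_left, ← mul_assoc, hz, mul_zero, add_zero] at this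
    exact (mul_ne_zero ha hs) this
  have h1 := htf _ (isOfFinOrder_of_mul_mem _ hne hmem)
  exact hgh (inv_mul_eq_one.1 h1).symm

theorem support_card_ge_three (htf : ∀ g : G, IsOfFinOrder g → g = 1)
    {α β : MonoidAlgebra K G} (hα : α ≠ 0) (hβ : β ≠ 0) (h : α * β = 0) :
    3 ≤ α.coeff.support.card := by
  classical
  by_contra hlt
  have hne : α.coeff ≠ 0 := by simpa using hα
  have h0 : α.coeff.support.card ≠ 0 := by simpa using hne
  have hle : α.coeff.support.card = 1 ∨ α.coeff.support.card = 2 := by omega
  rcases hle with h1 | h2
  · obtain ⟨g, hg⟩ := Finset.card_eq_one.1 h1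
    have hαe : α = single g (α.coeff g) := by
      ext q
      by_cases hq : q = g
      · subst hq; simp
      · have : α.coeff q = 0 := by
          rw [← Finsupp.notMem_support_iff, hg]; simpa using hq
        simp [this, Ne.symm hq]
    have hga : α.coeff g ≠ 0 := by
      rw [← Finsupp.mem_support_iff, hg]; simp
    apply hβ
    ext q
    have := congrArg (fun x : MonoidAlgebra K G => x.coeff (g * q)) h
    rw [hαe] at this
    simpa [coeff_single_mul_apply, hga] using this
  · obtain ⟨g, k, hgk, hg⟩ := Finset.card_eq_two.1 h2
    have hαe : α = single g (α.coeff g) + single k (α.coeff k) := by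
      ext q
      by_cases hq : q = g
      · subst hq; simp [Ne.symm hgk]
      · by_cases hq' : q = k
        · subst hq'; simp [hgk]
        · have : α.coeff q = 0 := by
            rw [← Finsupp.notMem_support_iff, hg]; simp [hq, hq']
          simp [this, Ne.symm hq, Ne.symm hq']
    rw [hαe] at h
    exact binomial_mul_ne_zero htf hgk
      (by rw [← Finsupp.mem_support_iff, hg]; simp)
      (by rw [← Finsupp.mem_support_iff, hg]; simp) hβ h

/-- The antipode of the group algebra. -/
noncomputable def antipode (α : MonoidAlgebra K G) : MonoidAlgebra K G :=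
  MonoidAlgebra.ofCoeff (α.coeff.mapDomain fun g => g⁻¹)

theorem antipode_coeff (α : MonoidAlgebra K G) (g : G) :
    (antipode α).coeff g⁻¹ = α.coeff g := by
  simp [antipode, Finsupp.mapDomain_apply inv_injective]

theorem antipode_add (α β : MonoidAlgebra K G) :
    antipode (α + β) = antipode α + antipode β := by
  ext g
  obtain ⟨g, rfl⟩ := inv_surjective g
  simp [antipode_coeff]

theorem antipode_single (g : G) (a : K) :
    antipode (single g a) = single g⁻¹ a := by
  ext x
  simp [antipode, Finsupp.mapDomain_single]

theorem antipode_zero : antipode (0 : MonoidAlgebra K G) = 0 := by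
  ext g
  obtain ⟨g, rfl⟩ := inv_surjective g
  simp [antipode_coeff]

theorem antipode_mul (α β : MonoidAlgebra K G) :
    antipode (α * β) = antipode β * antipode α := by
  induction α using MonoidAlgebra.induction_linear with
  | zero => simp [antipode_zero]
  | add x y hx hy => simp [add_mul, mul_add, antipode_add, hx, hy]
  | single g a =>
    induction β using MonoidAlgebra.induction_linear with
    | zero => simp [antipode_zero]
    | add x y hx hy => simp [add_mul, mul_add, antipode_add, hx, hy]
    | single h b => simp [antipode_single, single_mul_single, mul_comm]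

theorem antipode_ne_zero {α : MonoidAlgebra K G} (h : α ≠ 0) : antipode α ≠ 0 := by
  intro h0
  apply h
  ext g
  rw [← antipode_coeff, h0]; simp

/-- Restriction of an element to the right coset `H * y`, read inside `K[H]`. -/
noncomputable def cosetPart (H : Subgroup G) (y : G) (β : MonoidAlgebra K G) :
    MonoidAlgebra K H :=
  MonoidAlgebra.ofCoeff (β.coeff.comapDomain (fun t : H => (t : G) * y)
    ((mul_left_injective y).comp Subtype.coe_injective).injOn)

theorem cosetPart_coeff (H : Subgroup G) (y : G) (β : MonoidAlgebra K G) (t : H) :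
    (cosetPart H y β).coeff t = β.coeff ((t : G) * y) := by
  simp [cosetPart]

theorem cosetPart_add (H : Subgroup G) (y : G) (β β' : MonoidAlgebra K G) :
    cosetPart H y (β + β') = cosetPart H y β + cosetPart H y β' := by
  ext t; simp [cosetPart_coeff]

theorem cosetPart_mul (H : Subgroup G) (y : G) (a : MonoidAlgebra K H)
    (β : MonoidAlgebra K G) :
    cosetPart H y (MonoidAlgebra.mapDomainRingHom K H.subtype a * β) = a * cosetPart H y β := by
  induction a using MonoidAlgebra.induction_linear with
  | zero => ext t; simp [cosetPart_coeff]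
  | add x z hx hz => rw [map_add, add_mul, cosetPart_add, hx, hz, add_mul]
  | single h c => ext t; simp [cosetPart_coeff, coeff_single_mul_apply, mul_assoc]

/-- If `α * β = 0` and the support of `α` lies in a left translate of `H`, then `K[H]` has
zero divisors. -/
theorem not_noZeroDivisors_of_support {H : Subgroup G} {g₀ : G}
    {α β : MonoidAlgebra K G} (hsupp : ∀ g ∈ α.coeff.support, g₀⁻¹ * g ∈ H)
    (hα : α ≠ 0) (hβ : β ≠ 0) (h : α * β = 0) :
    ¬ NoZeroDivisors (MonoidAlgebra K H) := by
  classical
  intro hnzd
  let a : MonoidAlgebra K H := cosetPart H 1 (single g₀⁻¹ 1 * α)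
  have ha : MonoidAlgebra.mapDomainRingHom K H.subtype a = single g₀⁻¹ 1 * α := by
    ext x
    by_cases hx : x ∈ H
    · have hmap : (MonoidAlgebra.mapDomainRingHom K H.subtype a).coeff x = a.coeff ⟨x, hx⟩ := by
        simp only [MonoidAlgebra.mapDomainRingHom_apply, MonoidAlgebra.coeff_mapDomain]
        exact Finsupp.mapDomain_apply (f := H.subtype) Subtype.coe_injective a.coeff ⟨x, hx⟩
      rw [hmap, cosetPart_coeff, mul_one]
    · have hmap : (MonoidAlgebra.mapDomainRingHom K H.subtype a).coeff x = 0 := by
        simp only [MonoidAlgebra.mapDomainRingHom_apply, MonoidAlgebra.coeff_mapDomain]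
        refine Finsupp.mapDomain_of_notMem_range _ _ ?_
        rintro ⟨t, rfl⟩
        exact hx t.2
      rw [hmap, coeff_single_mul_apply, inv_inv, one_mul]
      symm
      rw [← Finsupp.notMem_support_iff]
      intro hc
      exact hx (by simpa using hsupp _ hc)
  obtain ⟨y, hy⟩ : ∃ y, β.coeff y ≠ 0 := by
    by_contra hall
    push Not at hall
    exact hβ (by ext q; simp [hall q])
  have hb : cosetPart H y β ≠ 0 := by
    intro h0
    apply hy
    have := congrArg (fun x : MonoidAlgebra K H => x.coeff 1) h0
    simpa [cosetPart_coeff] using this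
  have hab : a * cosetPart H y β = 0 := by
    rw [← cosetPart_mul, ha, mul_assoc, h, mul_zero]
    ext t; simp [cosetPart_coeff]
  rcases mul_eq_zero.1 hab with h1 | h1
  · apply hα
    have h2 : single g₀⁻¹ (1 : K) * α = 0 := by rw [← ha, h1, map_zero]
    ext q
    have := congrArg (fun x : MonoidAlgebra K G => x.coeff (g₀⁻¹ * q)) h2
    simpa [coeff_single_mul_apply] using this
  · exact hb h1

end Vale.Agent.P201
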