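import Mathlib
import Vale.Agent.P201.Approx

/-!
Passage to groups with a unique-product quotient, and from locally embeddable into finite
groups to approximable subgroups of a free group.
-/

namespace Vale.Agent.P201

/-- An extension of a group with domain group algebra by a unique product group has domain
group algebra. -/
theorem noZeroDivisors_extension {G U : Type*} [Group G] [Group U] [UniqueProds U]
    (K : Type*) [Field K] (π : G →* U) (P : Type*) [Group P] (i : P →* G)
    (hi : Function.Injective i) (hker : ∀ g, π g = 1 ↔ g ∈ i.range)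
    [NoZeroDivisors (MonoidAlgebra K P)] : NoZeroDivisors (MonoidAlgebra K G) := by
  classical
  refine ⟨fun {α β} hab => ?_⟩
  by_contra hne
  push Not at hne
  obtain ⟨hα, hβ⟩ := hne
  have hαs : α.coeff.support.Nonempty := by
    rw [Finsupp.support_nonempty_iff]; simpa using hα
  have hβs : β.coeff.support.Nonempty := by
    rw [Finsupp.support_nonempty_iff]; simpa using hβ
  obtain ⟨u, hu, v, hv, huv⟩ := UniqueProds.uniqueMul_of_nonempty
    (hαs.image π) (hβs.image π)
  obtain ⟨g, hg, rfl⟩ := Finset.mem_image.1 hu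
  obtain ⟨g', hg', rfl⟩ := Finset.mem_image.1 hv
  let a : MonoidAlgebra K P := MonoidAlgebra.ofCoeff
    (α.coeff.comapDomain (fun t => g * i t) ((mul_right_injective g).comp hi).injOn)
  let b : MonoidAlgebra K P := MonoidAlgebra.ofCoeff
    (β.coeff.comapDomain (fun t => i t * g') ((mul_left_injective g').comp hi).injOn)
  have ha : ∀ t, a.coeff t = α.coeff (g * i t) := fun t => by simp [a]
  have hb : ∀ t, b.coeff t = β.coeff (i t * g') := fun t => by simp [b]
  have ha0 : a ≠ 0 := by
    intro h0
    have := ha 1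
    rw [h0] at this
    simp at this
    exact Finsupp.mem_support_iff.1 hg this.symm
  have hb0 : b ≠ 0 := by
    intro h0
    have := hb 1
    rw [h0] at this
    simp at this
    exact Finsupp.mem_support_iff.1 hg' this.symm
  refine mul_ne_zero ha0 hb0 ?_
  ext t
  have h0 : (α * β).coeff (g * i t * g') = 0 := by rw [hab]; simp
  rw [MonoidAlgebra.coeff_mul, Finsupp.sum, Finset.sum_congr rfl fun x _ => rfl] at h0
  simp only [Finsupp.sum] at h0
  rw [MonoidAlgebra.coeff_mul]
  simp only [Finsupp.sum, MonoidAlgebra.coeff_zero, Finsupp.zero_apply]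
  rw [← Finset.sum_product'] at h0 ⊢
  refine Eq.trans ?_ h0
  refine Finset.sum_bij_ne_zero (fun p _ _ => (g * i p.1, i p.2 * g')) ?_ ?_ ?_ ?_
  · intro p hp _
    rw [Finset.mem_product] at hp ⊢
    simp only [Finsupp.mem_support_iff, ha, hb] at hp ⊢
    exact hp
  · intro p _ _ q _ _ he
    simp only [Prod.mk.injEq, mul_right_inj, mul_left_inj] at he
    exact Prod.ext (hi he.1) (hi he.2)
  · intro q hq hne
    have he : q.1 * q.2 = g * i t * g' := by
      by_contra hc
      exact hne (if_neg hc)
    rw [Finset.mem_product] at hq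
    have hπ : π q.1 * π q.2 = π g * π g' := by
      rw [← map_mul, he, map_mul, map_mul, (hker (i t)).2 ⟨t, rfl⟩, mul_one]
    obtain ⟨e1, e2⟩ := huv (Finset.mem_image_of_mem π hq.1) (Finset.mem_image_of_mem π hq.2) hπ
    obtain ⟨s, hs⟩ := (hker (g⁻¹ * q.1)).1 (by simp [e1])
    obtain ⟨r, hr⟩ := (hker (q.2 * g'⁻¹)).1 (by simp [e2])
    have hs' : g * i s = q.1 := by rw [hs]; simp
    have hr' : i r * g' = q.2 := by rw [hr]; simp
    have hsr : s * r = t := by
      apply hi
      have h1 : g * (i s * i r) * g' = g * i t * g' := by rw [← he, ← hs', ← hr']; group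
      rw [map_mul]
      exact mul_left_cancel (mul_right_cancel h1)
    refine ⟨(s, r), ?_, ?_, ?_⟩
    · simp only [Finset.mem_product, Finsupp.mem_support_iff, ha, hb, hs', hr']
      exact ⟨Finsupp.mem_support_iff.1 hq.1, Finsupp.mem_support_iff.1 hq.2⟩
    · simp only [hsr, if_true, ha, hb, hs', hr']
      exact mul_ne_zero (Finsupp.mem_support_iff.1 hq.1) (Finsupp.mem_support_iff.1 hq.2)
    · simp [hs', hr']
  · intro p _ _
    simp only [ha, hb]
    have : g * i p.1 * (i p.2 * g') = g * i (p.1 * p.2) * g' := by rw [map_mul]; group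
    simp only [this, mul_right_inj, mul_left_inj, hi.eq_iff]

/-- Local embeddability into finite groups, in terms of permutation groups. -/
def LEF (Q : Type*) [Group Q] : Prop :=
  ∀ S : Finset Q, ∃ (n : ℕ) (φ : Q → Equiv.Perm (Fin n)),
    Set.InjOn φ S ∧ ∀ a ∈ S, ∀ b ∈ S, a * b ∈ S → φ (a * b) = φ a * φ b

theorem approximable_of_lef {Y Q : Type*} [Group Q] (hQ : LEF Q) (ψ : FreeGroup Y →* Q) :
    Approximable ψ.ker := by
  classical
  intro W
  let gen : Y × Bool → Q := fun p =>
    cond p.2 (ψ (FreeGroup.of p.1)) (ψ (FreeGroup.of p.1))⁻¹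
  have hmk : ∀ L : List (Y × Bool), ψ (FreeGroup.mk L) = (L.map gen).prod := by
    intro L
    rw [← FreeGroup.lift_mk (f := fun y => ψ (FreeGroup.of y))]
    congr 1
    ext y
    simp
  let S : Finset Q := insert 1 (W.biUnion fun w =>
    w.toWord.toFinset.image (fun p => ψ (FreeGroup.of p.1)) ∪
    w.toWord.toFinset.image (fun p => (ψ (FreeGroup.of p.1))⁻¹) ∪
    (w.toWord.tails.toFinset).image fun L => (L.map gen).prod)
  obtain ⟨n, φ, hinj, hmul⟩ := hQ S
  have h1S : (1 : Q) ∈ S := Finset.mem_insert_self _ _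
  have h1 : φ 1 = 1 := by
    have := hmul 1 h1S 1 h1S (by simpa using h1S)
    rw [mul_one] at this
    exact left_eq_mul.1 this
  let ψ₀ : FreeGroup Y →* Equiv.Perm (Fin n) := FreeGroup.lift fun y => φ (ψ (FreeGroup.of y))
  refine ⟨ψ₀.ker, inferInstance, inferInstance, fun w hw => ?_⟩
  have hS : ∀ x, x ∈ w.toWord.toFinset.image (fun p => ψ (FreeGroup.of p.1)) ∪
      w.toWord.toFinset.image (fun p => (ψ (FreeGroup.of p.1))⁻¹) ∪
      (w.toWord.tails.toFinset).image (fun L => (L.map gen).prod) → x ∈ S := fun x hx =>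
    Finset.mem_insert_of_mem (Finset.mem_biUnion.2 ⟨w, hw, hx⟩)
  have key : ∀ L, L <:+ w.toWord → ψ₀ (FreeGroup.mk L) = φ (L.map gen).prod := by
    intro L
    induction L with
    | nil => intro _; simp [h1, ← FreeGroup.one_eq_mk]
    | cons p L ih =>
      intro hsuf
      have hsuf' : L <:+ w.toWord := (List.suffix_cons p L).trans hsuf
      have hp : p ∈ w.toWord := hsuf.subset List.mem_cons_self
      have hxS : ψ (FreeGroup.of p.1) ∈ S := by
        apply hS
        simp only [Finset.mem_union, Finset.mem_image, List.mem_toFinset]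
        exact Or.inl (Or.inl ⟨p, hp, rfl⟩)
      have hxS' : (ψ (FreeGroup.of p.1))⁻¹ ∈ S := by
        apply hS
        simp only [Finset.mem_union, Finset.mem_image, List.mem_toFinset]
        exact Or.inl (Or.inr ⟨p, hp, rfl⟩)
      have hLS : ∀ M, M <:+ w.toWord → (M.map gen).prod ∈ S := by
        intro M hM
        apply hS
        simp only [Finset.mem_union, Finset.mem_image, List.mem_toFinset, List.mem_tails]
        exact Or.inr ⟨M, hM, rfl⟩
      have hgen : gen p ∈ S := by
        obtain ⟨y, b⟩ := p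
        cases b <;> simpa [gen]
      have hinv : φ (ψ (FreeGroup.of p.1))⁻¹ = (φ (ψ (FreeGroup.of p.1)))⁻¹ := by
        have := hmul _ hxS _ hxS' (by simpa using h1S)
        rw [mul_inv_cancel, h1] at this
        exact eq_inv_of_mul_eq_one_right this.symm
      rw [show FreeGroup.mk (p :: L) = FreeGroup.mk [p] * FreeGroup.mk L by simp [FreeGroup.mul_mk],
        map_mul, ih hsuf', List.map_cons, List.prod_cons,
        hmul _ hgen _ (hLS _ hsuf') (by simpa using hLS _ hsuf)]
      congr 1
      simp only [ψ₀, FreeGroup.lift_mk, List.map_cons, List.map_nil, List.prod_cons, List.prod_nil,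
        mul_one]
      obtain ⟨y, b⟩ := p
      cases b <;> simp [gen, hinv]
  have hw0 := key w.toWord (List.suffix_refl _)
  rw [← hmk, FreeGroup.mk_toWord] at hw0
  have hwS : ψ w ∈ S := by
    apply hS
    simp only [Finset.mem_union, Finset.mem_image, List.mem_toFinset, List.mem_tails]
    exact Or.inr ⟨w.toWord, List.suffix_refl _, by rw [← hmk, FreeGroup.mk_toWord]⟩
  rw [MonoidHom.mem_ker, MonoidHom.mem_ker, hw0]
  exact ⟨fun h => by rw [h, h1], fun h => hinj hwS h1S (h.trans h1.symm)⟩

/-- Derived subgroups commute with group isomorphisms. -/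
theorem map_derived {A B : Type*} [Group A] [Group B] (e : A →* B)
    (R : Subgroup A) (k : ℕ) :
    ((derivedSeries R k).map R.subtype).map e =
      (derivedSeries (R.map e) k).map (R.map e).subtype := by
  induction k with
  | zero =>
    simp only [derivedSeries_zero, ← MonoidHom.range_eq_map, Subgroup.range_subtype]
  | succ k ih =>
    simp only [derivedSeries_succ, Subgroup.map_commutator, ih]

/-- `K[F / R^(k)]` has no zero divisors when `F / R` has a locally finitely embeddable normal
subgroup with unique-product quotient. -/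
theorem noZeroDivisors_of_lef_by_uniqueProds {X : Type*} (R P : Subgroup (FreeGroup X))
    [R.Normal] [P.Normal] (hRP : R ≤ P) [UniqueProds (FreeGroup X ⧸ P)]
    (hP : LEF (P ⧸ R.subgroupOf P)) (k : ℕ) (K : Type*) [Field K]
    [((derivedSeries R (k + 1)).map R.subtype).Normal] :
    NoZeroDivisors
      (MonoidAlgebra K (FreeGroup X ⧸ (derivedSeries R (k + 1)).map R.subtype)) := by
  classical
  let Y := IsFreeGroup.Generators P
  let e : FreeGroup Y ≃* P := IsFreeGroup.mulEquiv P
  let ψ : FreeGroup Y →* P ⧸ R.subgroupOf P :=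
    (QuotientGroup.mk' (R.subgroupOf P)).comp e.toMonoidHom
  have hap : Approximable ψ.ker := approximable_of_lef hP ψ
  obtain ⟨hn, hapk⟩ := hap.derivedSeries k
  have hdom := hapk.noZeroDivisors K
  set N := (derivedSeries R (k + 1)).map R.subtype with hN
  let j : FreeGroup Y →* FreeGroup X := P.subtype.comp e.toMonoidHom
  have hj : Function.Injective j := Subtype.coe_injective.comp e.injective
  have hkerR : ψ.ker.map j = R := by
    ext x
    simp only [Subgroup.mem_map, MonoidHom.mem_ker, ψ, MonoidHom.comp_apply,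
      MulEquiv.coe_toMonoidHom, QuotientGroup.mk'_apply, QuotientGroup.eq_one_iff,
      Subgroup.mem_subgroupOf, j, Subgroup.coe_subtype]
    exact ⟨fun ⟨y, hy, he⟩ => he ▸ hy, fun hx => ⟨e.symm ⟨x, hRP hx⟩, by simpa, by simp⟩⟩
  set M := ⁅(derivedSeries ψ.ker k).map ψ.ker.subtype, (derivedSeries ψ.ker k).map ψ.ker.subtype⁆
    with hM
  have hMN : M.map j = N := by
    rw [hM, Subgroup.map_commutator, map_derived, hN, derivedSeries_succ, Subgroup.map_commutator,
      hkerR]
  have hMker : M = ((QuotientGroup.mk' N).comp j).ker := by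
    rw [← MonoidHom.comap_ker, QuotientGroup.ker_mk', ← hMN,
      Subgroup.comap_map_eq_self_of_injective hj]
  have hNP : N ≤ P := le_trans (Subgroup.map_subtype_le _) hRP
  let π : FreeGroup X ⧸ N →* FreeGroup X ⧸ P :=
    QuotientGroup.map N P (MonoidHom.id _) hNP
  let i₀ : FreeGroup Y ⧸ M →* FreeGroup X ⧸ N :=
    QuotientGroup.lift M ((QuotientGroup.mk' N).comp j) hMker.le
  have hi : Function.Injective i₀ := by
    rw [injective_iff_map_eq_one]
    intro x
    refine QuotientGroup.induction_on x fun w hw => ?_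
    rw [QuotientGroup.eq_one_iff, hMker]
    exact hw
  refine noZeroDivisors_extension K π (FreeGroup Y ⧸ M) i₀ hi fun g => ?_
  refine QuotientGroup.induction_on g fun w => ?_
  constructor
  · intro hw
    have hwP : w ∈ P := (QuotientGroup.eq_one_iff w).1 hw
    refine ⟨(e.symm ⟨w, hwP⟩ : FreeGroup Y), ?_⟩
    show ((j (e.symm ⟨w, hwP⟩) : FreeGroup X) : FreeGroup X ⧸ N) = _
    simp [j]
    rfl
  · rintro ⟨x, hx⟩
    revert hx
    refine QuotientGroup.induction_on x fun y hy => ?_
    rw [← hy]
    exact (QuotientGroup.eq_one_iff _).2 (e y).2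

end Vale.Agent.P201
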