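import Mathlib
import Vale.Agent.P201.Base

/-!
Reduction of a zero divisor at a valuation of the coefficient field.
-/

namespace Vale.Agent.P201

open MonoidAlgebra IsLocalRing

variable {K : Type*} [Field K] {G : Type*} [Group G]
  {Γ₀ : Type*} [LinearOrderedCommGroupWithZero Γ₀]

/-- The support points where the valuation of the coefficient is maximal. -/
noncomputable def maxSet (v : Valuation K Γ₀) (α : MonoidAlgebra K G) : Finset G := by
  classical
  exact α.coeff.support.filter fun g => ∀ h ∈ α.coeff.support, v (α.coeff h) ≤ v (α.coeff g)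

theorem mem_maxSet {v : Valuation K Γ₀} {α : MonoidAlgebra K G} {g : G} :
    g ∈ maxSet v α ↔ g ∈ α.coeff.support ∧
      ∀ h ∈ α.coeff.support, v (α.coeff h) ≤ v (α.coeff g) := by
  classical
  simp [maxSet]

theorem exists_lift (v : Valuation K Γ₀) {α : MonoidAlgebra K G} (hα : α ≠ 0) :
    ∃ (c : K) (a : MonoidAlgebra v.valuationSubring G), c ≠ 0 ∧
      MonoidAlgebra.mapRingHom G v.valuationSubring.subtype a = single 1 c * α ∧
      (MonoidAlgebra.mapRingHom G (residue v.valuationSubring) a).coeff.support = maxSet v α ∧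
      MonoidAlgebra.mapRingHom G (residue v.valuationSubring) a ≠ 0 := by
  classical
  have hne : α.coeff.support.Nonempty := by
    rw [Finsupp.support_nonempty_iff]
    simpa using hα
  obtain ⟨g₀, hg₀, hmax⟩ := Finset.exists_max_image α.coeff.support (fun g => v (α.coeff g)) hne
  have hg₀' : α.coeff g₀ ≠ 0 := Finsupp.mem_support_iff.1 hg₀
  have hpos : 0 < v (α.coeff g₀) := zero_lt_iff.2 ((Valuation.ne_zero_iff v).2 hg₀')
  set c := (α.coeff g₀)⁻¹ with hc
  have hle : ∀ g, v (c * α.coeff g) ≤ 1 := by
    intro g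
    by_cases hg : g ∈ α.coeff.support
    · rw [map_mul, hc, map_inv₀, inv_mul_le_one₀ hpos]
      exact hmax g hg
    · simp [Finsupp.notMem_support_iff.1 hg]
  let a : MonoidAlgebra v.valuationSubring G := MonoidAlgebra.ofCoeff
    (Finsupp.onFinset α.coeff.support
      (fun g => (⟨c * α.coeff g, (Valuation.mem_valuationSubring_iff v _).2 (hle g)⟩ :
        v.valuationSubring))
      (fun g hg => by
        rw [Finsupp.mem_support_iff]
        intro h0
        apply hg
        ext
        simp [h0]))
  have ha : ∀ g, ((a.coeff g : v.valuationSubring) : K) = c * α.coeff g := fun g => by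
    simp [a]
  have hsupp : (MonoidAlgebra.mapRingHom G (residue v.valuationSubring) a).coeff.support
      = maxSet v α := by
    ext g
    rw [Finsupp.mem_support_iff, mem_maxSet]
    have key : (MonoidAlgebra.mapRingHom G (residue v.valuationSubring) a).coeff g ≠ 0 ↔
        v (c * α.coeff g) = 1 := by
      rw [MonoidAlgebra.coeff_mapRingHom]
      rw [residue_ne_zero_iff_isUnit]
      rw [(Valuation.valuationSubring.integers v).isUnit_iff_valuation_eq_one]
      show v ((a.coeff g : v.valuationSubring) : K) = 1 ↔ _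
      rw [ha]
    rw [key, map_mul, hc, map_inv₀, inv_mul_eq_one₀ hpos.ne']
    constructor
    · intro h
      refine ⟨?_, fun k hk => h ▸ hmax k hk⟩
      rw [Finsupp.mem_support_iff]
      intro h0
      rw [h0, map_zero] at h
      exact hpos.ne' h
    · rintro ⟨hg, h⟩
      exact le_antisymm (h g₀ hg₀) (hmax g hg)
  refine ⟨c, a, inv_ne_zero hg₀', ?_, hsupp, ?_⟩
  · ext g
    simp [MonoidAlgebra.coeff_map, ha, coeff_single_mul_apply]
  · intro h0
    have : g₀ ∈ maxSet v α := mem_maxSet.2 ⟨hg₀, hmax⟩
    rw [← hsupp, h0] at this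
    simp at this

/-- The residual zero divisor attached to a valuation. -/
theorem exists_residual (v : Valuation K Γ₀) {α β : MonoidAlgebra K G} (hα : α ≠ 0) (hβ : β ≠ 0)
    (h : α * β = 0) :
    ∃ a b : MonoidAlgebra (ResidueField v.valuationSubring) G,
      a ≠ 0 ∧ b ≠ 0 ∧ a * b = 0 ∧
      a.coeff.support = maxSet v α ∧ b.coeff.support = maxSet v β := by
  obtain ⟨c, a, -, hamap, hasupp, hane⟩ := exists_lift v hα
  obtain ⟨d, b, -, hbmap, hbsupp, hbne⟩ := exists_lift v hβ
  refine ⟨_, _, hane, hbne, ?_, hasupp, hbsupp⟩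
  rw [← map_mul]
  have : a * b = 0 := by
    have hinj : Function.Injective
        (MonoidAlgebra.mapRingHom G v.valuationSubring.subtype) := by
      intro x y hxy
      ext g
      have := congrArg (fun z : MonoidAlgebra K G => z.coeff g) hxy
      simpa [MonoidAlgebra.coeff_map] using this
    apply hinj
    rw [map_mul, map_zero, hamap, hbmap]
    have hcomm : α * single 1 d = single 1 d * α := by
      ext g; simp [coeff_single_mul_apply, coeff_mul_single_apply, mul_comm]
    rw [mul_assoc, ← mul_assoc α, hcomm, mul_assoc, h, mul_zero, mul_zero]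
  rw [this, map_zero]

theorem maxSet_card_ge_three (htf : ∀ g : G, IsOfFinOrder g → g = 1) (v : Valuation K Γ₀)
    {α β : MonoidAlgebra K G} (hα : α ≠ 0) (hβ : β ≠ 0) (h : α * β = 0) :
    3 ≤ (maxSet v α).card := by
  obtain ⟨a, b, ha, hb, hab, hsa, -⟩ := exists_residual v hα hβ h
  rw [← hsa]
  exact support_card_ge_three htf ha hb hab

theorem isIntegral_coeff (htf : ∀ g : G, IsOfFinOrder g → g = 1)
    {α β : MonoidAlgebra K G} (hα : α ≠ 0) (hβ : β ≠ 0) (h : α * β = 0)
    {x y : G} :
    IsIntegral (Subring.closure ((fun g => α.coeff g) ''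
      {g | g ∈ α.coeff.support ∧ g ≠ x ∧ g ≠ y})) (α.coeff x) := by
  classical
  set s : Set K := (fun g => α.coeff g) '' {g | g ∈ α.coeff.support ∧ g ≠ x ∧ g ≠ y} with hs
  show α.coeff x ∈ (integralClosure (Subring.closure s) K).toSubring
  rw [← iInf_valuationSubring_superset]
  simp only [Subring.mem_iInf, Subtype.forall]
  intro V hV
  show α.coeff x ∈ V
  by_contra hx
  have hx1 : 1 < V.valuation (α.coeff x) := by
    rw [← not_le, ValuationSubring.valuation_le_one_iff]
    exact hx
  have hxs : x ∈ α.coeff.support := by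
    rw [Finsupp.mem_support_iff]
    intro h0
    rw [h0] at hx
    exact hx (zero_mem V)
  have hsub : maxSet V.valuation α ⊆ ({x, y} : Finset G) := by
    intro g hg
    rw [mem_maxSet] at hg
    by_contra hgxy
    simp only [Finset.mem_insert, Finset.mem_singleton, not_or] at hgxy
    have hgV : α.coeff g ∈ V := hV ⟨g, ⟨hg.1, hgxy⟩, rfl⟩
    exact absurd ((ValuationSubring.valuation_le_one_iff V _).2 hgV)
      (not_le.2 (hx1.trans_le (hg.2 x hxs)))
  have := (maxSet_card_ge_three htf V.valuation hα hβ h).trans (Finset.card_le_card hsub)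
  have := Finset.card_le_two (a := x) (b := y)
  omega

/-- For a three-term zero divisor all coefficient ratios are integral over `ℤ`. -/
theorem isIntegral_ratio (htf : ∀ g : G, IsOfFinOrder g → g = 1)
    {α β : MonoidAlgebra K G} (hα : α ≠ 0) (hβ : β ≠ 0) (h : α * β = 0)
    (hcard : α.coeff.support.card = 3) {x z : G} (hx : x ∈ α.coeff.support)
    (hz : z ∈ α.coeff.support) :
    IsIntegral ℤ (α.coeff x / α.coeff z) := by
  classical
  have hz0 : α.coeff z ≠ 0 := Finsupp.mem_support_iff.1 hz
  by_cases hxz : x = z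
  · subst hxz
    rw [div_self hz0]
    exact isIntegral_one
  let α' : MonoidAlgebra K G := single 1 (α.coeff z)⁻¹ * α
  have hc : ∀ g, α'.coeff g = (α.coeff z)⁻¹ * α.coeff g := fun g => by
    simp [α', coeff_single_mul_apply]
  have hsupp : α'.coeff.support = α.coeff.support := by
    ext g
    simp [hc, hz0]
  have h' : α' * β = 0 := by rw [mul_assoc, h, mul_zero]
  have hα' : α' ≠ 0 := by
    intro h0
    have hh := hsupp
    rw [h0] at hh
    simp [← hh] at hcard
  obtain ⟨y, hy⟩ : ∃ y, (α.coeff.support.erase z).erase x = {y} := by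
    apply Finset.card_eq_one.1
    rw [Finset.card_erase_of_mem (Finset.mem_erase.2 ⟨hxz, hx⟩), Finset.card_erase_of_mem hz]
    omega
  have hclose : ((fun g => α'.coeff g) '' {g | g ∈ α'.coeff.support ∧ g ≠ x ∧ g ≠ y})
      ⊆ {1} := by
    rintro _ ⟨g, ⟨hg, hgx, hgy⟩, rfl⟩
    rw [hsupp] at hg
    have hgz : g = z := by
      by_contra hgz
      have : g ∈ (α.coeff.support.erase z).erase x := by
        simp [hgx, hgz, Finsupp.mem_support_iff.1 hg]
      rw [hy, Finset.mem_singleton] at this
      exact hgy this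
    subst hgz
    simp [hc, hz0]
  have hint := isIntegral_coeff htf hα' hβ h' (x := x) (y := y)
  rw [hc, inv_mul_eq_div] at hint
  have hle : Subring.closure ((fun g => α'.coeff g) ''
      {g | g ∈ α'.coeff.support ∧ g ≠ x ∧ g ≠ y}) ≤ (algebraMap ℤ K).range := by
    rw [Subring.closure_le]
    intro t ht
    rw [Set.mem_singleton_iff.1 (hclose ht)]
    exact one_mem _
  obtain ⟨p, hp, hpx⟩ := hint
  have hmem : (p.map (Subring.subtype _)) ∈ Polynomial.lifts (algebraMap ℤ K) := by
    rw [Polynomial.lifts_iff_coeff_lifts]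
    intro n
    rw [Polynomial.coeff_map]
    exact hle (p.coeff n).2
  obtain ⟨q, hq, -, hqm⟩ := Polynomial.lifts_and_degree_eq_and_monic hmem (hp.map _)
  refine ⟨q, hqm, ?_⟩
  rw [← Polynomial.eval_map, hq, Polynomial.eval_map]
  exact hpx

end Vale.Agent.P201
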